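import Vale.Agent.P301.H599.Stmt

/-! # Pairs (irreducible holomorphic symplectic manifold, line bundle) of Picard rank two -/

open scoped Manifold ContDiff ComplexOrder Topology

noncomputable section

namespace Vale.Agent.P301.H99

open Vale.Agent.P272.K Vale.Agent.P301.H599

variable {d : ℕ} {X : Type} [TopologicalSpace X] [ChartedSpace (Cm d) X] {ι : Type}

/-- The class of every line bundle on `X` is a real combination of `c₁(L)` and `c₁(V)`, and an
integral multiple of `c₁(L)` if it is a real multiple of `c₁(L)`; `ρ` and `ρV` are smooth metrics of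
`L` and `V`. -/
structure NS (L : LineBundle d X ι) (ρ : ι → X → ℝ) {κ : Type} (V : LineBundle d X κ)
    (ρV : κ → X → ℝ) : Prop where
  comb : ∀ (ν : Type) (M : LineBundle d X ν) (ρM : ν → X → ℝ), IsMetric M ρM → ∃ α β : ℝ,
    SameClass (curvature M ρM)
      (fun e z => (α : ℂ) • curvature L ρ e z + (β : ℂ) • curvature V ρV e z)
  int : ∀ (ν : Type) (M : LineBundle d X ν) (ρM : ν → X → ℝ), IsMetric M ρM → ∀ t : ℝ,
    SameClass (curvature M ρM) (fun e z => (t : ℂ) • curvature L ρ e z) → ∃ m : ℤ, (m : ℝ) = t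

/-- `X` has a Kähler metric `w`, a holomorphic symplectic form `s` with `H⁰(X, Ω²) = ℂ s`, and an
automorphism `F` with `F^* c₁(L) = c₁(L)`, `(F^* - 1)² [w] = c c₁(L)`, `c > 0`, and
`(F^* - 1) c₁(V) = a c₁(L)`, `a ≠ 0`, for a line bundle `V`; moreover `c₁(L) ≠ 0`, and the classes of
the line bundles on `X` are as in `NS`. -/
def IsPairV (L : LineBundle d X ι) : Prop :=
  ∃ (w s : Chart d X → Cm d → Matrix (Fin d) (Fin d) ℂ) (ρ : ι → X → ℝ) (F : Auto d X) (c : ℝ)
    (κ : Type) (V : LineBundle d X κ) (ρV : κ → X → ℝ) (a : ℤ),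
    IsSymplectic d X w s ∧ IsMetric L ρ ∧ IsMetric V ρV ∧ 0 < c ∧ a ≠ 0 ∧
    SameClass (pull F (curvature L ρ)) (curvature L ρ) ∧
    SameClass (fun e z => pull F (pull F w) e z - (2 : ℂ) • pull F w e z + w e z)
      (fun e z => (c : ℂ) • curvature L ρ e z) ∧
    SameClass (pull F (curvature V ρV))
      (fun e z => curvature V ρV e z + (a : ℂ) • curvature L ρ e z) ∧
    ¬ SameClass (curvature L ρ) (fun _ _ => 0) ∧ NS L ρ V ρV

end Vale.Agent.P301.H99
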