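import Vale.Agent.P301.H599.Stmt
import Vale.Agent.P299.H720.Montel
import Mathlib.Geometry.Manifold.ContMDiff.Atlas
import Mathlib.Geometry.Manifold.ContMDiff.NormedSpace

/-! # Limits of pairs (compact complex manifold, line bundle) and sections

`(X, L)` is a limit of pairs `(Y n, M n)` if charts and frames of `(Y n, M n)` converge locally
uniformly to charts and frames of `(X, L)`. The number of sections can only go up in the limit
(Montel's theorem).
-/

open scoped Manifold ContDiff ComplexOrder Topology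
open Filter Metric Set

set_option linter.all false

noncomputable section

namespace Vale.Agent.P301.H99

open Vale.Agent.P272.K Vale.Agent.P301.H599

variable {d : ℕ} {X : Type} [TopologicalSpace X] [ChartedSpace (Cm d) X] {ι : Type}

/-- `f` is a holomorphic section of `L^k`. -/
def Sec (L : LineBundle d X ι) (k : ℕ) (f : ι → X → ℂ) : Prop :=
  (∀ i (e : Chart d X) x, At e x → x ∈ L.U i →
    AnalyticAt ℂ (fun z => f i (e.symm z)) (e x)) ∧
  ∀ i j x, x ∈ L.U i → x ∈ L.U j → f i x = L.g i j x ^ k * f j x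

/-- Charts and frames of the pairs `(Y n, M n)` converge to charts and frames of `(X, L)`: there
are homeomorphisms `φ n : X ≃ₜ Y n`, a finite open cover `V a` of `X`, holomorphic charts `e a` of
`X` and `e' n a` of `Y n` on `V a` and `φ n (V a)`, and members `i a` and `i' n a` of the cocycles of
`L` and `M n`, such that the charts `e' n a ∘ φ n` converge to `e a` and the transition functions
of `M n` converge to those of `L`, locally uniformly. -/
structure Conv (L : LineBundle d X ι) (Y : ℕ → Type) [∀ n, TopologicalSpace (Y n)]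
    [∀ n, ChartedSpace (Cm d) (Y n)] (κ : ℕ → Type) (M : ∀ n, LineBundle d (Y n) (κ n))
    (N : ℕ) where
  φ : ∀ n, X ≃ₜ Y n
  V : Fin N → Set X
  e : Fin N → Chart d X
  i : Fin N → ι
  e' : ∀ n, Fin N → Chart d (Y n)
  i' : ∀ n, Fin N → κ n
  isOpen : ∀ a, IsOpen (V a)
  cover : ∀ x, ∃ a, x ∈ V a
  chart : ∀ a, e a ∈ IsManifold.maximalAtlas 𝓘(ℂ, Cm d) ω X
  source : ∀ a, ∀ x ∈ V a, x ∈ (e a).source ∧ x ∈ L.U (i a)
  chart' : ∀ n a, e' n a ∈ IsManifold.maximalAtlas 𝓘(ℂ, Cm d) ω (Y n)
  source' : ∀ n a, ∀ x ∈ V a, φ n x ∈ (e' n a).source ∧ φ n x ∈ (M n).U (i' n a)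
  tendsto_chart : ∀ a, TendstoLocallyUniformlyOn (fun n x => e' n a (φ n x)) (e a) atTop (V a)
  tendsto_frame : ∀ a b, TendstoLocallyUniformlyOn
    (fun n x => (M n).g (i' n a) (i' n b) (φ n x)) (L.g (i a) (i b)) atTop (V a ∩ V b)

/-- The pair `(X, L)` is a limit of the pairs `(Y n, M n)`. -/
def IsLimit (L : LineBundle d X ι) (Y : ℕ → Type) [∀ n, TopologicalSpace (Y n)]
    [∀ n, ChartedSpace (Cm d) (Y n)] (κ : ℕ → Type) (M : ∀ n, LineBundle d (Y n) (κ n)) : Prop :=
  ∃ N : ℕ, Nonempty (Conv L Y κ M N)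

section charts

variable [IsManifold 𝓘(ℂ, Cm d) ω X]

lemma analytic_max {f : X → ℂ} {e c : Chart d X} {x : X}
    (he : e ∈ IsManifold.maximalAtlas 𝓘(ℂ, Cm d) ω X)
    (hc : c ∈ IsManifold.maximalAtlas 𝓘(ℂ, Cm d) ω X) (hx : x ∈ e.source) (hx' : x ∈ c.source)
    (h : AnalyticAt ℂ (fun z => f (c.symm z)) (c x)) :
    AnalyticAt ℂ (fun z => f (e.symm z)) (e x) := by
  have h1 : ContMDiffAt 𝓘(ℂ, Cm d) 𝓘(ℂ, Cm d) ω e.symm (e x) :=
    (contMDiffOn_symm_of_mem_maximalAtlas he).contMDiffAt
      (e.open_target.mem_nhds (e.map_source hx))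
  have h2 : ContMDiffAt 𝓘(ℂ, Cm d) 𝓘(ℂ, Cm d) ω c x :=
    (contMDiffOn_of_mem_maximalAtlas hc).contMDiffAt (c.open_source.mem_nhds hx')
  have h3 : AnalyticAt ℂ (fun z => c (e.symm z)) (e x) := by
    have h3' : ContDiffAt ℂ ω (fun z => c (e.symm z)) (e x) := by
      rw [← contMDiffAt_iff_contDiffAt]
      refine ContMDiffAt.comp (e x) (g := c) ?_ h1
      rw [e.left_inv hx]
      exact h2
    exact h3'.analyticAt
  have h4 : AnalyticAt ℂ (fun z => f (c.symm (c (e.symm z)))) (e x) := by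
    refine AnalyticAt.fun_comp (f := fun z => c (e.symm z)) (g := fun z => f (c.symm z)) ?_ h3
    rw [e.left_inv hx]
    exact h
  refine h4.congr ?_
  have h5 : ∀ᶠ z in 𝓝 (e x), e.symm z ∈ c.source := by
    refine (e.continuousAt_symm (e.map_source hx)).eventually (c.open_source.mem_nhds ?_)
    rw [e.left_inv hx]
    exact hx'
  filter_upwards [h5] with z hz
  rw [c.left_inv hz]

lemma analytic_of_at {f : X → ℂ} {x : X}
    (h : ∀ c : Chart d X, At c x → AnalyticAt ℂ (fun z => f (c.symm z)) (c x)) {e : Chart d X}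
    (he : e ∈ IsManifold.maximalAtlas 𝓘(ℂ, Cm d) ω X) (hx : x ∈ e.source) :
    AnalyticAt ℂ (fun z => f (e.symm z)) (e x) :=
  analytic_max he (IsManifold.subset_maximalAtlas (chart_mem_atlas (Cm d) x)) hx
    (mem_chart_source (Cm d) x) (h _ ⟨chart_mem_atlas (Cm d) x, mem_chart_source (Cm d) x⟩)

omit [IsManifold 𝓘(ℂ, Cm d) ω X] in
lemma continuousAt_of_at {f : X → ℂ} {x : X}
    (h : ∀ c : Chart d X, At c x → AnalyticAt ℂ (fun z => f (c.symm z)) (c x)) :
    ContinuousAt f x := by
  have h1 := (h _ ⟨chart_mem_atlas (Cm d) x, mem_chart_source (Cm d) x⟩).continuousAt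
  have h2 : ContinuousAt (chartAt (Cm d) x) x :=
    (chartAt (Cm d) x).continuousAt (mem_chart_source (Cm d) x)
  have h3 : ContinuousAt (fun y => f ((chartAt (Cm d) x).symm (chartAt (Cm d) x y))) x :=
    ContinuousAt.comp (f := chartAt (Cm d) x) (g := fun z => f ((chartAt (Cm d) x).symm z)) h1 h2
  refine h3.congr ?_
  filter_upwards [(chartAt (Cm d) x).open_source.mem_nhds (mem_chart_source (Cm d) x)] with y hy
  rw [(chartAt (Cm d) x).left_inv hy]

end charts

lemma locUnif_mono {α β γ : Type*} [TopologicalSpace α] [UniformSpace β] {F : γ → α → β}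
    {f : α → β} {p q : Filter γ} {s : Set α} (h : TendstoLocallyUniformlyOn F f p s)
    (hq : q ≤ p) : TendstoLocallyUniformlyOn F f q s := by
  intro u hu x hx
  obtain ⟨t, ht, h1⟩ := h u hu x hx
  exact ⟨t, ht, h1.filter_mono hq⟩

namespace Conv

variable {L : LineBundle d X ι}
  {Y : ℕ → Type} [∀ n, TopologicalSpace (Y n)] [∀ n, ChartedSpace (Cm d) (Y n)] {κ : ℕ → Type}
  {M : ∀ n, LineBundle d (Y n) (κ n)} {N : ℕ}

/-- The charts of `Y n` cover a fixed ball. -/
lemma full (C : Conv L Y κ M N) {a : Fin N} {x : X} {O : Set X} (hO : IsOpen O) (hxO : x ∈ O)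
    (hOV : O ⊆ C.V a) :
    ∃ r > 0, ∀ᶠ n in atTop, ∀ z ∈ ball (C.e a x) r,
      z ∈ (C.e' n a).target ∧ ∃ y ∈ O, (C.e' n a).symm z = C.φ n y := by
  set e := C.e a with he
  have hxs : x ∈ e.source := (C.source a x (hOV hxO)).1
  have h1 : IsOpen (e.target ∩ e.symm ⁻¹' O) := e.isOpen_inter_preimage_symm hO
  have h2 : e x ∈ e.target ∩ e.symm ⁻¹' O :=
    ⟨e.map_source hxs, by rw [mem_preimage, e.left_inv hxs]; exact hxO⟩
  obtain ⟨R', hR', hsub'⟩ := Metric.isOpen_iff.1 h1 _ h2
  set R := R' / 4 with hRdef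
  have hR : 0 < R := by positivity
  have hsub : closedBall (e x) (2 * R) ⊆ e.target ∩ e.symm ⁻¹' O :=
    (closedBall_subset_ball (by rw [hRdef]; linarith)).trans hsub'
  have hBt : closedBall (e x) (2 * R) ⊆ e.target := fun z hz => (hsub hz).1
  set B := e.symm '' closedBall (e x) (2 * R) with hB
  have hBO : B ⊆ O := by
    rintro y ⟨z, hz, rfl⟩
    exact (hsub hz).2
  have hBc : IsCompact B :=
    (isCompact_closedBall _ _).image_of_continuousOn (e.continuousOn_symm.mono hBt)
  have hunif : TendstoUniformlyOn (fun n x => C.e' n a (C.φ n x)) e atTop B :=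
    (tendstoLocallyUniformlyOn_iff_tendstoUniformlyOn_of_compact hBc).1
      ((C.tendsto_chart a).mono (hBO.trans hOV))
  refine ⟨R, hR, ?_⟩
  filter_upwards [Metric.tendstoUniformlyOn_iff.1 hunif (R / 2) (by positivity)] with n hn
  set e' := C.e' n a with he'
  set h : X → Cm d := fun y => e' (C.φ n y) with hh
  have hcont : ContinuousOn h B := by
    intro y hy
    have hy' := C.source' n a y (hOV (hBO hy))
    exact ((e'.continuousAt hy'.1).comp (C.φ n).continuous.continuousAt).continuousWithinAt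
  set Bo := e.symm '' ball (e x) (2 * R) with hBo
  have hBoB : Bo ⊆ B := image_mono ball_subset_closedBall
  have hBoo : IsOpen Bo := e.isOpen_image_symm_of_subset_target isOpen_ball
    (ball_subset_closedBall.trans hBt)
  have hopen : IsOpen (h '' Bo) := by
    have : h '' Bo = e' '' (C.φ n '' Bo) := (image_image (e' : Y n → Cm d) (C.φ n) Bo).symm
    rw [this]
    refine e'.isOpen_image_of_subset_source ((C.φ n).isOpenMap _ hBoo) ?_
    rintro _ ⟨y, hy, rfl⟩
    exact (C.source' n a y (hOV (hBO (hBoB hy)))).1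
  have hclosed : IsClosed (h '' B) := (hBc.image_of_continuousOn hcont).isClosed
  have hxB : x ∈ Bo := ⟨e x, mem_ball_self (by positivity), e.left_inv hxs⟩
  have hmain : ball (e x) R ⊆ h '' Bo := by
    refine IsPreconnected.subset_left_of_subset_union hopen hclosed.isOpen_compl ?_ ?_ ?_
      (convex_ball (e x) R).isPreconnected
    · rw [disjoint_compl_right_iff_subset]
      exact image_mono hBoB
    · intro z hz
      by_cases hzB : z ∈ h '' B
      · left
        obtain ⟨y, hy, rfl⟩ := hzB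
        have h3 := hn y hy
        obtain ⟨w, hw, rfl⟩ := hy
        refine ⟨e.symm w, ⟨w, ?_, rfl⟩, rfl⟩
        rw [e.right_inv (hBt hw)] at h3
        rw [mem_ball] at hz ⊢
        have h4 := dist_triangle w (h (e.symm w)) (e x)
        have h5 : dist w (h (e.symm w)) < R / 2 := h3
        linarith
      · right
        exact hzB
    · refine ⟨h x, ?_, x, hxB, rfl⟩
      have h3 := hn x (hBoB hxB)
      rw [mem_ball, dist_comm]
      have h5 : dist (e x) (h x) < R / 2 := h3
      linarith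
  intro z hz
  obtain ⟨y, hy, hyz⟩ := hmain hz
  have hy' := C.source' n a y (hOV (hBO (hBoB hy)))
  refine ⟨?_, y, hBO (hBoB hy), ?_⟩
  · rw [← hyz]; exact e'.map_source hy'.1
  · rw [← hyz]; exact e'.left_inv hy'.1

end Conv

end Vale.Agent.P301.H99
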