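import Vale.Agent.P301.H99.Lim3

/-! # Semicontinuity: limits of pairs with `r` independent sections -/

open scoped Manifold ContDiff ComplexOrder Topology Matrix
open Filter Metric Set

set_option linter.all false

noncomputable section

namespace Vale.Agent.P301.H99

open Vale.Agent.P272.K Vale.Agent.P301.H599

variable {d : ℕ} {X : Type} [TopologicalSpace X] [ChartedSpace (Cm d) X] {ι : Type}
  {L : LineBundle d X ι}
  {Y : ℕ → Type} [∀ n, TopologicalSpace (Y n)] [∀ n, ChartedSpace (Cm d) (Y n)] {κ : ℕ → Type}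
  {M : ∀ n, LineBundle d (Y n) (κ n)} {N : ℕ}

/-- linear combinations of sections -/
lemma Sec.comb {L : LineBundle d X ι} {k r : ℕ} {f : Fin r → ι → X → ℂ} (hf : ∀ j, Sec L k (f j))
    (c : Fin r → ℂ) : Sec L k (fun i x => ∑ j, c j * f j i x) := by
  refine ⟨fun i e x he hi => ?_, fun i j x hi hj => ?_⟩
  · exact Finset.analyticAt_fun_sum _ fun a _ => analyticAt_const.mul ((hf a).1 i e x he hi)
  · show ∑ a, c a * f a i x = L.g i j x ^ k * ∑ a, c a * f a j x
    rw [Finset.mul_sum]
    refine Finset.sum_congr rfl fun a _ => ?_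
    rw [(hf a).2 i j x hi hj]
    ring

/-- independent sections -/
def IndSec (L : LineBundle d X ι) {r : ℕ} (f : Fin r → ι → X → ℂ) : Prop :=
  ∀ c : Fin r → ℂ, (∀ i x, x ∈ L.U i → ∑ j, c j * f j i x = 0) → c = 0

/-- among vectors which are not contained in a hyperplane there is a basis -/
lemma exists_det_ne {r : ℕ} {P : Type*} (S : Set P) (E : P → Fin r → ℂ)
    (h : ∀ c : Fin r → ℂ, (∀ p ∈ S, ∑ j, c j * E p j = 0) → c = 0) :
    ∃ Q : Fin r → P, (∀ i, Q i ∈ S) ∧ (Matrix.of fun i j => E (Q i) j).det ≠ 0 := by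
  classical
  have hspan : Submodule.span ℂ (E '' S) = ⊤ := by
    by_contra hne
    obtain ⟨φ, hφ, hφ0⟩ := Submodule.exists_le_ker_of_lt_top _ (lt_top_iff_ne_top.2 hne)
    apply hφ
    have h1 := h (fun j => φ (Pi.single j 1)) (fun p hp => by
      have h2 : φ (E p) = 0 := hφ0 (Submodule.subset_span ⟨p, hp, rfl⟩)
      have h3 : E p = ∑ j, E p j • (Pi.single j 1 : Fin r → ℂ) := by
        ext k
        simp [Finset.sum_apply, Pi.single_apply]
      rw [h3, map_sum] at h2
      simp only [map_smul, smul_eq_mul] at h2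
      rw [← h2]
      exact Finset.sum_congr rfl fun j _ => mul_comm _ _)
    refine LinearMap.pi_ext' fun j => ?_
    ext
    simpa using congrFun h1 j
  obtain ⟨b, hbS, hbspan, hbli⟩ := exists_linearIndependent ℂ (E '' S)
  rw [hspan] at hbspan
  set B := Module.Basis.mk hbli (by rw [Subtype.range_coe, hbspan]) with hB
  have hfin : Fintype b := FiniteDimensional.fintypeBasisIndex B
  have hcard : Fintype.card b = r := by
    rw [← Module.finrank_eq_card_basis B, Module.finrank_fin_fun]
  let e : Fin r ≃ b := (Fintype.equivFinOfCardEq hcard).symm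
  have hch : ∀ i : Fin r, ∃ p ∈ S, E p = (e i : Fin r → ℂ) := fun i => hbS (e i).2
  choose Q hQS hQ using hch
  refine ⟨Q, hQS, ?_⟩
  have hli : LinearIndependent ℂ fun i => E (Q i) := by
    have : (fun i => E (Q i)) = (fun x : b => (x : Fin r → ℂ)) ∘ e := by
      funext i; exact hQ i
    rw [this]
    exact hbli.comp e e.injective
  have h4 := (Matrix.linearIndependent_rows_iff_isUnit (A := Matrix.of fun i j => E (Q i) j)).1 hli
  exact ((Matrix.isUnit_iff_isUnit_det _).1 h4).ne_zero

namespace Conv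

variable [IsManifold 𝓘(ℂ, Cm d) ω X] [∀ n, IsManifold 𝓘(ℂ, Cm d) ω (Y n)] [CompactSpace X]
  [T2Space X]

/-- **`r` sections.** -/
theorem r_sec (C : Conv L Y κ M N) {K r : ℕ}
    (hs : ∀ n, ∃ f : Fin r → κ n → Y n → ℂ, (∀ j, Sec (M n) K (f j)) ∧ IndSec (M n) f) :
    ∃ F : Fin r → ι → X → ℂ, (∀ j, Sec L K (F j)) ∧ IndSec L F := by
  classical
  obtain ⟨W, hWo, hWc, hWV⟩ := C.exists_shrink
  choose f hf hind using hs
  -- the evaluation vectors
  set E : ∀ n, Fin N × X → Fin r → ℂ := fun n p j => f n j (C.i' n p.1) (C.φ n p.2) with hE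
  have hEc : ∀ n, ContinuousOn (E n) (SS W) := fun n =>
    continuousOn_pi.2 fun j => C.continuousOn_SS hWV (hf n j)
  have hEind : ∀ n, ∀ c : Fin r → ℂ, (∀ p ∈ SS W, ∑ j, c j * E n p j = 0) → c = 0 := by
    intro n c hc
    exact hind n c fun i x hx => C.exists_ne hWc hWV (Sec.comb (hf n) c) hc i x hx
  set A : ∀ n, (Fin r → Fin N × X) → Matrix (Fin r) (Fin r) ℂ :=
    fun n Q => Matrix.of fun i j => E n (Q i) j with hA
  have hcpt : IsCompact (Set.pi univ fun _ : Fin r => (SS W : Set (Fin N × X))) :=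
    isCompact_univ_pi fun _ => isCompact_SS W
  have hdet : ∀ n, ContinuousOn (fun Q : Fin r → Fin N × X => ‖(A n Q).det‖)
      (Set.pi univ fun _ : Fin r => (SS W : Set (Fin N × X))) := by
    intro n
    refine ContinuousOn.norm ?_
    refine (Continuous.matrix_det continuous_id).comp_continuousOn ?_
    refine continuousOn_pi.2 fun i => continuousOn_pi.2 fun j => ?_
    have h1 : ContinuousOn (fun Q : Fin r → Fin N × X => E n (Q i))
        (Set.pi univ fun _ : Fin r => (SS W : Set (Fin N × X))) :=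
      (hEc n).comp (continuous_apply i).continuousOn fun Q hQ => hQ i (mem_univ i)
    exact (continuous_apply j).comp_continuousOn h1
  have hmax : ∀ n, ∃ Q : Fin r → Fin N × X, (∀ i, Q i ∈ SS W) ∧ (A n Q).det ≠ 0 ∧
      ∀ Q' : Fin r → Fin N × X, (∀ i, Q' i ∈ SS W) → ‖(A n Q').det‖ ≤ ‖(A n Q).det‖ := by
    intro n
    obtain ⟨Q0, hQ0, hQ0d⟩ := exists_det_ne (SS W) (E n) (hEind n)
    obtain ⟨Q, hQ, hQm⟩ := hcpt.exists_isMaxOn ⟨Q0, fun i _ => hQ0 i⟩ (hdet n)
    refine ⟨Q, fun i => hQ i (mem_univ i), fun h0 => ?_, fun Q' hQ' => hQm fun i _ => hQ' i⟩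
    have h1 : ‖(A n Q0).det‖ ≤ ‖(A n Q).det‖ := hQm fun i _ => hQ0 i
    rw [h0, norm_zero] at h1
    exact hQ0d (norm_le_zero_iff.1 h1)
  choose Q hQ hQd hQm using hmax
  -- the normalised sections
  set u : ∀ n, Fin r → κ n → Y n → ℂ := fun n j i x =>
    ∑ k, (((A n (Q n)).det)⁻¹ * ((A n (Q n)).transpose.adjugate j k)) * f n k i x with hu
  have hus : ∀ n j, Sec (M n) K (u n j) := fun n j => Sec.comb (hf n) _
  have hup : ∀ n j p, u n j (C.i' n p.1) (C.φ n p.2) =
      ((A n (Q n)).det)⁻¹ * ((A n (Q n)).updateRow j (E n p)).det := by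
    intro n j p
    rw [← Matrix.cramer_transpose_apply, Matrix.cramer_eq_adjugate_mulVec]
    simp only [hu, Matrix.mulVec, dotProduct, Finset.mul_sum]
    exact Finset.sum_congr rfl fun k _ => by rw [mul_assoc]
  have hupd : ∀ n j p, (A n (Q n)).updateRow j (E n p) = A n (Function.update (Q n) j p) := by
    intro n j p
    ext i k
    by_cases hij : i = j
    · subst hij
      rw [Matrix.updateRow_self]
      show _ = E n (Function.update (Q n) i p i) k
      rw [Function.update_self]
    · rw [Matrix.updateRow_ne hij]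
      show _ = E n (Function.update (Q n) j p i) k
      rw [Function.update_of_ne hij]
      rfl
  have hub : ∀ n j a x, x ∈ closure (W a) → ‖u n j (C.i' n a) (C.φ n x)‖ ≤ 1 := by
    intro n j a x hx
    have h3 := hup n j (a, x)
    simp only at h3
    have h2 : 0 < ‖(A n (Q n)).det‖ := norm_pos_iff.2 (hQd n)
    rw [h3, hupd, norm_mul, norm_inv, inv_mul_le_iff₀ h2, mul_one]
    refine hQm n _ fun i => ?_
    by_cases hij : i = j
    · subst hij; rw [Function.update_self]; exact hx
    · rw [Function.update_of_ne hij]; exact hQ n i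
  have hδ : ∀ n j i, u n j (C.i' n (Q n i).1) (C.φ n (Q n i).2) = if i = j then 1 else 0 := by
    intro n j i
    rw [hup]
    split_ifs with hij
    · subst hij
      have h1 : (A n (Q n)).updateRow i (E n (Q n i)) = A n (Q n) := by
        rw [hupd, Function.update_eq_self]
      rw [h1]
      exact inv_mul_cancel₀ (hQd n)
    · have h1 : ((A n (Q n)).updateRow j (E n (Q n i))).det = 0 :=
        Matrix.det_zero_of_row_eq (i := i) (j := j) hij (by
          rw [Matrix.updateRow_self, Matrix.updateRow_ne hij]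
          rfl)
      rw [h1, mul_zero]
  set 𝒰 : Ultrafilter ℕ := hyperfilter ℕ with h𝒰
  have hle : (𝒰 : Filter ℕ) ≤ atTop := by
    rw [← Nat.cofinite_eq_atTop]; exact hyperfilter_le_cofinite
  choose F hF hFlim using fun j => C.exists_limit 𝒰 hle hWo hWc hWV (fun n => hus n j)
    (fun n a x hx => hub n j a x hx)
  have hpt : ∀ i, ∃ p ∈ SS W, Tendsto (fun n => Q n i) 𝒰 (𝓝 p) := by
    intro i
    obtain ⟨p, hp, hPp⟩ := (isCompact_SS W).ultrafilter_le_nhds (𝒰.map fun n => Q n i) (by
      rw [le_principal_iff]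
      exact Filter.mem_map.2 (univ_mem' fun n => hQ n i))
    exact ⟨p, hp, hPp⟩
  choose p hp hpt using hpt
  have hval : ∀ j i, F j (C.i (p i).1) (p i).2 = if i = j then 1 else 0 := by
    intro j i
    refine tendsto_nhds_unique (C.tendsto_SS 𝒰 hWV (hFlim j) (hp i) (hpt i)) ?_
    exact tendsto_const_nhds.congr fun n => (hδ n j i).symm
  refine ⟨F, hF, fun c hc => ?_⟩
  funext i
  have h1 := hc (C.i (p i).1) (p i).2 (C.source _ _ (hWV _ (hp i))).2
  simp only [hval, mul_ite, mul_one, mul_zero, Finset.sum_ite_eq, Finset.mem_univ, if_true] at h1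
  exact h1

end Conv

end Vale.Agent.P301.H99
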