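import Vale.Agent.P301.H99.Lim2
import Mathlib.Topology.ShrinkingLemma

/-! # Semicontinuity: limits of pairs with one or two sections -/

open scoped Manifold ContDiff ComplexOrder Topology
open Filter Metric Set

set_option linter.all false

noncomputable section

namespace Vale.Agent.P301.H99

open Vale.Agent.P272.K Vale.Agent.P301.H599

variable {d : ℕ} {X : Type} [TopologicalSpace X] [ChartedSpace (Cm d) X] {ι : Type}
  {L : LineBundle d X ι}
  {Y : ℕ → Type} [∀ n, TopologicalSpace (Y n)] [∀ n, ChartedSpace (Cm d) (Y n)] {κ : ℕ → Type}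
  {M : ∀ n, LineBundle d (Y n) (κ n)} {N : ℕ}

lemma Sec.lin {L : LineBundle d X ι} {k : ℕ} {f g : ι → X → ℂ} (hf : Sec L k f) (hg : Sec L k g)
    (α β : ℂ) : Sec L k (fun i x => α * f i x + β * g i x) := by
  refine ⟨fun i e x he hi => ?_, fun i j x hi hj => ?_⟩
  · exact (analyticAt_const.mul (hf.1 i e x he hi)).add (analyticAt_const.mul (hg.1 i e x he hi))
  · show α * f i x + β * g i x = L.g i j x ^ k * (α * f j x + β * g j x)
    rw [hf.2 i j x hi hj, hg.2 i j x hi hj]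
    ring

namespace Conv

lemma exists_shrink [CompactSpace X] [T2Space X] (C : Conv L Y κ M N) :
    ∃ W : Fin N → Set X, (∀ a, IsOpen (W a)) ∧ (∀ x, ∃ a, x ∈ W a) ∧
      ∀ a, closure (W a) ⊆ C.V a := by
  obtain ⟨W, h1, h2, h3⟩ := exists_iUnion_eq_closure_subset (u := C.V) C.isOpen
    (fun x => Set.toFinite _) (by
      ext x
      simpa using C.cover x)
  refine ⟨W, h2, fun x => ?_, h3⟩
  have : x ∈ ⋃ a, W a := by rw [h1]; trivial
  simpa using this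

/-- The compact set of pairs `(a, x)` with `x` in the closure of `W a`. -/
def SS (W : Fin N → Set X) : Set (Fin N × X) := {p | p.2 ∈ closure (W p.1)}

lemma isCompact_SS [CompactSpace X] (W : Fin N → Set X) : IsCompact (SS W) := by
  refine IsClosed.isCompact ?_
  have h : SS W = ⋃ a : Fin N, ({a} : Set (Fin N)) ×ˢ closure (W a) := by
    ext ⟨a, x⟩
    simp [SS]
  rw [h]
  exact isClosed_iUnion_of_finite fun a => (isClosed_discrete _).prod isClosed_closure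

lemma continuousOn_SS (C : Conv L Y κ M N) {W : Fin N → Set X}
    (hWV : ∀ a, closure (W a) ⊆ C.V a) {K n : ℕ} {f : κ n → Y n → ℂ} (hf : Sec (M n) K f) :
    ContinuousOn (fun p : Fin N × X => f (C.i' n p.1) (C.φ n p.2)) (SS W) := by
  rw [continuousOn_prod_of_discrete_left]
  intro a x hx
  have hx' : x ∈ C.V a := hWV a hx
  exact ((hf.continuousAt (C.source' n a x hx').2).comp
    (C.φ n).continuous.continuousAt).continuousWithinAt

lemma tendsto_SS [IsManifold 𝓘(ℂ, Cm d) ω X] (C : Conv L Y κ M N) (𝒰 : Ultrafilter ℕ)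
    {W : Fin N → Set X} (hWV : ∀ a, closure (W a) ⊆ C.V a) {f : ∀ n, κ n → Y n → ℂ}
    {F : ι → X → ℂ}
    (hF : ∀ a, ∀ x ∈ C.V a, ∀ u : ℕ → X, Tendsto u 𝒰 (𝓝 x) →
      Tendsto (fun n => f n (C.i' n a) (C.φ n (u n))) 𝒰 (𝓝 (F (C.i a) x)))
    {P : ℕ → Fin N × X} {p : Fin N × X} (hp : p ∈ SS W) (hP : Tendsto P 𝒰 (𝓝 p)) :
    Tendsto (fun n => f n (C.i' n (P n).1) (C.φ n (P n).2)) 𝒰 (𝓝 (F (C.i p.1) p.2)) := by
  have h1 : Tendsto (fun n => (P n).1) 𝒰 (𝓝 p.1) := (continuous_fst.tendsto p).comp hP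
  have h2 : Tendsto (fun n => (P n).2) 𝒰 (𝓝 p.2) := (continuous_snd.tendsto p).comp hP
  have h3 : ∀ᶠ n in (𝒰 : Filter ℕ), (P n).1 = p.1 := by
    rw [nhds_discrete] at h1
    exact (h1.eventually (eventually_pure.2 rfl)).mono fun n hn => hn.symm
  refine (hF p.1 p.2 (hWV _ hp) _ h2).congr' ?_
  filter_upwards [h3] with n hn
  rw [hn]

variable [IsManifold 𝓘(ℂ, Cm d) ω X] [∀ n, IsManifold 𝓘(ℂ, Cm d) ω (Y n)] [CompactSpace X]
  [T2Space X]

lemma exists_max (C : Conv L Y κ M N) {W : Fin N → Set X}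
    (hWV : ∀ a, closure (W a) ⊆ C.V a) {K n : ℕ} {f g : κ n → Y n → ℂ} (hf : Sec (M n) K f)
    (hg : Sec (M n) K g) (hne : (SS W).Nonempty) :
    ∃ P ∈ SS W, ∃ Q ∈ SS W, ∀ P' ∈ SS W, ∀ Q' ∈ SS W,
      ‖f (C.i' n P'.1) (C.φ n P'.2) * g (C.i' n Q'.1) (C.φ n Q'.2) -
        f (C.i' n Q'.1) (C.φ n Q'.2) * g (C.i' n P'.1) (C.φ n P'.2)‖ ≤
      ‖f (C.i' n P.1) (C.φ n P.2) * g (C.i' n Q.1) (C.φ n Q.2) -
        f (C.i' n Q.1) (C.φ n Q.2) * g (C.i' n P.1) (C.φ n P.2)‖ := by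
  have hfc := C.continuousOn_SS hWV hf
  have hgc := C.continuousOn_SS hWV hg
  have h1 : ContinuousOn (fun r : (Fin N × X) × (Fin N × X) =>
      ‖f (C.i' n r.1.1) (C.φ n r.1.2) * g (C.i' n r.2.1) (C.φ n r.2.2) -
        f (C.i' n r.2.1) (C.φ n r.2.2) * g (C.i' n r.1.1) (C.φ n r.1.2)‖) (SS W ×ˢ SS W) := by
    have e1 : ContinuousOn (fun r : (Fin N × X) × (Fin N × X) => f (C.i' n r.1.1) (C.φ n r.1.2))
        (SS W ×ˢ SS W) := hfc.comp continuousOn_fst (fun r hr => hr.1)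
    have e2 : ContinuousOn (fun r : (Fin N × X) × (Fin N × X) => g (C.i' n r.2.1) (C.φ n r.2.2))
        (SS W ×ˢ SS W) := hgc.comp continuousOn_snd (fun r hr => hr.2)
    have e3 : ContinuousOn (fun r : (Fin N × X) × (Fin N × X) => f (C.i' n r.2.1) (C.φ n r.2.2))
        (SS W ×ˢ SS W) := hfc.comp continuousOn_snd (fun r hr => hr.2)
    have e4 : ContinuousOn (fun r : (Fin N × X) × (Fin N × X) => g (C.i' n r.1.1) (C.φ n r.1.2))
        (SS W ×ˢ SS W) := hgc.comp continuousOn_fst (fun r hr => hr.1)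
    exact ((e1.mul e2).sub (e3.mul e4)).norm
  obtain ⟨⟨P, Q⟩, ⟨hP, hQ⟩, h⟩ := ((isCompact_SS W).prod (isCompact_SS W)).exists_isMaxOn
    (hne.prod hne) h1
  exact ⟨P, hP, Q, hQ, fun P' hP' Q' hQ' => h (show (P', Q') ∈ SS W ×ˢ SS W from ⟨hP', hQ'⟩)⟩

/-- every nonzero value of a section can be seen on the compact set -/
lemma exists_ne (C : Conv L Y κ M N) {W : Fin N → Set X} (hWc : ∀ x, ∃ a, x ∈ W a)
    (hWV : ∀ a, closure (W a) ⊆ C.V a) {K n : ℕ} {f : κ n → Y n → ℂ} (hf : Sec (M n) K f)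
    (h : ∀ p ∈ SS W, f (C.i' n p.1) (C.φ n p.2) = 0) : ∀ i y, y ∈ (M n).U i → f i y = 0 := by
  intro i y hy
  obtain ⟨a, ha⟩ := hWc ((C.φ n).symm y)
  have h1 : ((C.φ n).symm y) ∈ closure (W a) := subset_closure ha
  have h2 := h (a, (C.φ n).symm y) h1
  have h3 := (C.source' n a _ (hWV a h1)).2
  simp only [Homeomorph.apply_symm_apply] at h2 h3
  rw [hf.2 i (C.i' n a) y hy h3, h2, mul_zero]

/-- **One section.** -/
theorem one_sec (C : Conv L Y κ M N) {K : ℕ}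
    (hs : ∀ n, ∃ f, Sec (M n) K f ∧ ∃ i y, y ∈ (M n).U i ∧ f i y ≠ 0) :
    ∃ F, Sec L K F ∧ ∃ i x, x ∈ L.U i ∧ F i x ≠ 0 := by
  obtain ⟨W, hWo, hWc, hWV⟩ := C.exists_shrink
  choose f hf i y hy hne using hs
  have hSS : (SS W).Nonempty := by
    obtain ⟨a, ha⟩ := hWc ((C.φ 0).symm (y 0))
    exact ⟨(a, (C.φ 0).symm (y 0)), subset_closure ha⟩
  have hmax : ∀ n, ∃ P ∈ SS W, ∀ P' ∈ SS W, ‖f n (C.i' n P'.1) (C.φ n P'.2)‖ ≤
      ‖f n (C.i' n P.1) (C.φ n P.2)‖ := by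
    intro n
    obtain ⟨P, hP, h⟩ := (isCompact_SS W).exists_isMaxOn hSS (C.continuousOn_SS hWV (hf n)).norm
    exact ⟨P, hP, fun P' hP' => h hP'⟩
  choose P hP hPm using hmax
  have hPne : ∀ n, f n (C.i' n (P n).1) (C.φ n (P n).2) ≠ 0 := by
    intro n h0
    refine hne n (C.exists_ne hWc hWV (hf n) (fun p hp => ?_) _ _ (hy n))
    have := hPm n p hp
    rw [h0, norm_zero] at this
    exact norm_le_zero_iff.1 this
  set g : ∀ n, κ n → Y n → ℂ := fun n i x =>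
    (f n (C.i' n (P n).1) (C.φ n (P n).2))⁻¹ * f n i x + 0 * f n i x with hg
  have hgs : ∀ n, Sec (M n) K (g n) := fun n => (hf n).lin (hf n) _ _
  have hgb : ∀ n a x, x ∈ closure (W a) → ‖g n (C.i' n a) (C.φ n x)‖ ≤ 1 := by
    intro n a x hx
    have h1 := hPm n (a, x) hx
    have h2 : 0 < ‖f n (C.i' n (P n).1) (C.φ n (P n).2)‖ := norm_pos_iff.2 (hPne n)
    simp only [hg, zero_mul, add_zero, norm_mul, norm_inv]
    rw [inv_mul_le_iff₀ h2, mul_one]
    exact h1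
  have hg1 : ∀ n, g n (C.i' n (P n).1) (C.φ n (P n).2) = 1 := by
    intro n
    simp only [hg, zero_mul, add_zero]
    exact inv_mul_cancel₀ (hPne n)
  set 𝒰 : Ultrafilter ℕ := hyperfilter ℕ with h𝒰
  have hle : (𝒰 : Filter ℕ) ≤ atTop := by
    rw [← Nat.cofinite_eq_atTop]; exact hyperfilter_le_cofinite
  obtain ⟨F, hF, hlim⟩ := C.exists_limit 𝒰 hle hWo hWc hWV hgs hgb
  obtain ⟨p, hp, hPp⟩ := (isCompact_SS W).ultrafilter_le_nhds (𝒰.map P) (by
    rw [le_principal_iff]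
    exact Filter.mem_map.2 (univ_mem' hP))
  have h1 := C.tendsto_SS 𝒰 hWV hlim hp hPp
  have h2 : F (C.i p.1) p.2 = 1 :=
    tendsto_nhds_unique h1 (tendsto_const_nhds.congr fun n => (hg1 n).symm)
  refine ⟨F, hF, C.i p.1, p.2, (C.source _ _ (hWV _ hp)).2, ?_⟩
  rw [h2]; exact one_ne_zero

/-- **Two sections.** -/
theorem two_sec (C : Conv L Y κ M N) {K : ℕ}
    (hs : ∀ n, ∃ f g, Sec (M n) K f ∧ Sec (M n) K g ∧
      ∀ α β : ℂ, (∀ i x, x ∈ (M n).U i → α * f i x + β * g i x = 0) → α = 0 ∧ β = 0) :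
    ∃ F G, Sec L K F ∧ Sec L K G ∧
      ∀ α β : ℂ, (∀ i x, x ∈ L.U i → α * F i x + β * G i x = 0) → α = 0 ∧ β = 0 := by
  obtain ⟨W, hWo, hWc, hWV⟩ := C.exists_shrink
  choose f g hf hg hind using hs
  -- `X` is nonempty
  have hSS : (SS W).Nonempty := by
    by_contra h
    rw [not_nonempty_iff_eq_empty] at h
    have h1 := (hind 0 1 1 (fun i y hy => by
      have := C.exists_ne hWc hWV ((hf 0).lin (hg 0) 1 1) (fun p hp => by
        rw [h] at hp; exact absurd hp (notMem_empty p)) i y hy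
      exact this)).1
    exact one_ne_zero h1
  choose P hP Q hQ hmax using fun n => C.exists_max (n := n) hWV (hf n) (hg n) hSS
  set D : ∀ n, Fin N × X → Fin N × X → ℂ := fun n p q =>
    f n (C.i' n p.1) (C.φ n p.2) * g n (C.i' n q.1) (C.φ n q.2) -
      f n (C.i' n q.1) (C.φ n q.2) * g n (C.i' n p.1) (C.φ n p.2) with hD
  have hDne : ∀ n, D n (P n) (Q n) ≠ 0 := by
    intro n h0
    have hall : ∀ p ∈ SS W, ∀ q ∈ SS W, D n p q = 0 := by
      intro p hp q hq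
      have := hmax n p hp q hq
      change ‖D n p q‖ ≤ ‖D n (P n) (Q n)‖ at this
      rw [h0, norm_zero] at this
      exact norm_le_zero_iff.1 this
    -- `f` vanishes
    have hf0 : ∀ p ∈ SS W, f n (C.i' n p.1) (C.φ n p.2) = 0 := by
      intro p hp
      have h1 := (hind n (-(g n (C.i' n p.1) (C.φ n p.2))) (f n (C.i' n p.1) (C.φ n p.2))
        (fun i y hy => by
          refine C.exists_ne hWc hWV ((hf n).lin (hg n) _ _) (fun q hq => ?_) i y hy
          have := hall p hp q hq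
          simp only [hD] at this
          show -(g n (C.i' n p.1) (C.φ n p.2)) * f n (C.i' n q.1) (C.φ n q.2) +
            f n (C.i' n p.1) (C.φ n p.2) * g n (C.i' n q.1) (C.φ n q.2) = 0
          linear_combination this)).2
      exact h1
    have h2 := C.exists_ne hWc hWV (hf n) hf0
    have h3 := (hind n 1 0 (fun i y hy => by rw [h2 i y hy]; ring)).1
    exact one_ne_zero h3
  set u : ∀ n, κ n → Y n → ℂ := fun n i x =>
    ((D n (P n) (Q n))⁻¹ * g n (C.i' n (Q n).1) (C.φ n (Q n).2)) * f n i x +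
      (-((D n (P n) (Q n))⁻¹ * f n (C.i' n (Q n).1) (C.φ n (Q n).2))) * g n i x with hu
  set v : ∀ n, κ n → Y n → ℂ := fun n i x =>
    (-((D n (P n) (Q n))⁻¹ * g n (C.i' n (P n).1) (C.φ n (P n).2))) * f n i x +
      ((D n (P n) (Q n))⁻¹ * f n (C.i' n (P n).1) (C.φ n (P n).2)) * g n i x with hv
  have hus : ∀ n, Sec (M n) K (u n) := fun n => (hf n).lin (hg n) _ _
  have hvs : ∀ n, Sec (M n) K (v n) := fun n => (hf n).lin (hg n) _ _
  have huD : ∀ n p, u n (C.i' n p.1) (C.φ n p.2) = (D n (P n) (Q n))⁻¹ * D n p (Q n) := by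
    intro n p
    simp only [hu, hD]
    ring
  have hvD : ∀ n p, v n (C.i' n p.1) (C.φ n p.2) = (D n (P n) (Q n))⁻¹ * D n (P n) p := by
    intro n p
    simp only [hv, hD]
    ring
  have hub : ∀ n a x, x ∈ closure (W a) → ‖u n (C.i' n a) (C.φ n x)‖ ≤ 1 := by
    intro n a x hx
    have h1 : ‖D n (a, x) (Q n)‖ ≤ ‖D n (P n) (Q n)‖ := hmax n (a, x) hx (Q n) (hQ n)
    have h2 : 0 < ‖D n (P n) (Q n)‖ := norm_pos_iff.2 (hDne n)
    have h3 := huD n (a, x)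
    simp only at h3
    rw [h3, norm_mul, norm_inv, inv_mul_le_iff₀ h2, mul_one]
    exact h1
  have hvb : ∀ n a x, x ∈ closure (W a) → ‖v n (C.i' n a) (C.φ n x)‖ ≤ 1 := by
    intro n a x hx
    have h1 : ‖D n (P n) (a, x)‖ ≤ ‖D n (P n) (Q n)‖ := hmax n (P n) (hP n) (a, x) hx
    have h2 : 0 < ‖D n (P n) (Q n)‖ := norm_pos_iff.2 (hDne n)
    have h3 := hvD n (a, x)
    simp only at h3
    rw [h3, norm_mul, norm_inv, inv_mul_le_iff₀ h2, mul_one]
    exact h1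
  set 𝒰 : Ultrafilter ℕ := hyperfilter ℕ with h𝒰
  have hle : (𝒰 : Filter ℕ) ≤ atTop := by
    rw [← Nat.cofinite_eq_atTop]; exact hyperfilter_le_cofinite
  obtain ⟨F, hF, hFlim⟩ := C.exists_limit 𝒰 hle hWo hWc hWV hus hub
  obtain ⟨G, hG, hGlim⟩ := C.exists_limit 𝒰 hle hWo hWc hWV hvs hvb
  obtain ⟨p, hp, hPp⟩ := (isCompact_SS W).ultrafilter_le_nhds (𝒰.map P) (by
    rw [le_principal_iff]
    exact Filter.mem_map.2 (univ_mem' hP))
  obtain ⟨q, hq, hQq⟩ := (isCompact_SS W).ultrafilter_le_nhds (𝒰.map Q) (by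
    rw [le_principal_iff]
    exact Filter.mem_map.2 (univ_mem' hQ))
  have hDD : ∀ n, (D n (P n) (Q n))⁻¹ * D n (P n) (Q n) = 1 := fun n => inv_mul_cancel₀ (hDne n)
  have hD0 : ∀ n p, D n p p = 0 := fun n p => by simp only [hD]; ring
  have h1 : F (C.i p.1) p.2 = 1 :=
    tendsto_nhds_unique (C.tendsto_SS 𝒰 hWV hFlim hp hPp)
      (tendsto_const_nhds.congr fun n => ((huD n (P n)).trans (hDD n)).symm)
  have h2 : F (C.i q.1) q.2 = 0 :=
    tendsto_nhds_unique (C.tendsto_SS 𝒰 hWV hFlim hq hQq)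
      (tendsto_const_nhds.congr fun n => by rw [huD n (Q n), hD0, mul_zero])
  have h3 : G (C.i q.1) q.2 = 1 :=
    tendsto_nhds_unique (C.tendsto_SS 𝒰 hWV hGlim hq hQq)
      (tendsto_const_nhds.congr fun n => ((hvD n (Q n)).trans (hDD n)).symm)
  have h4 : G (C.i p.1) p.2 = 0 :=
    tendsto_nhds_unique (C.tendsto_SS 𝒰 hWV hGlim hp hPp)
      (tendsto_const_nhds.congr fun n => by rw [hvD n (P n), hD0, mul_zero])
  refine ⟨F, G, hF, hG, fun α β h => ?_⟩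
  have h5 := h (C.i p.1) p.2 (C.source _ _ (hWV _ hp)).2
  have h6 := h (C.i q.1) q.2 (C.source _ _ (hWV _ hq)).2
  rw [h1, h4] at h5
  rw [h2, h3] at h6
  constructor
  · simpa using h5
  · simpa using h6

end Conv

end Vale.Agent.P301.H99
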