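import Vale.Agent.P301.H99.Pair
import Vale.Agent.P301.H99.Lim3
import Vale.Agent.P301.H599.ZL.Main
import Vale.Agent.P301.H450.EffPar
import Vale.Agent.P301.H450.EffFour
import Vale.Agent.P301.H949.Six

/-! # Sections for the pairs of `Pair.lean` -/

open scoped Manifold ContDiff ComplexOrder Topology
open Filter

set_option linter.all false

noncomputable section

namespace Vale.Agent.P301.H99

open Vale.Agent.P272.K Vale.Agent.P301.H599 Vale.Agent.P301.H450
open Vale.Agent.P301.H724 (HasSec)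

lemma not_exact_of {d : ℕ} {X : Type} [TopologicalSpace X] [ChartedSpace (Cm d) X] {ι : Type}
    {L : LineBundle d X ι} {ρ : ι → X → ℝ}
    (hne : ¬ SameClass (curvature L ρ) (fun _ _ => 0)) : ¬ IsExact (curvature L ρ) := fun h => by
  obtain ⟨u, hu, hue⟩ := h
  exact hne ⟨u, hu, fun e x hx => by rw [hue e x hx, zero_add]⟩

theorem IsPair.hasSec {d : ℕ} {X : Type} [TopologicalSpace X] [ChartedSpace (Cm d) X]
    [IsManifold 𝓘(ℂ, Cm d) ω X] [T2Space X] [CompactSpace X] [SimplyConnectedSpace X] {ι : Type}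
    {L : LineBundle d X ι} (h : IsPair L) : HasSec L (Mb d).factorial := by
  obtain ⟨w, s, ρ, hs, hρ, h⟩ := h
  rcases h with ⟨F, c, hc, hθ, hdd⟩ | ⟨hn, h0, ψ, hψ, hz⟩
  · exact eff_nonvanishing hs hρ F hc hθ hdd
  · exact ZL.sec_zl ⟨w, s, ρ, ψ, hs, hρ, hn, INT.intX_eq_of_isIntegral h0, hψ, hz⟩

theorem IsPairNZ.hasMobilePair {X : Type} [TopologicalSpace X] [ChartedSpace (Cm 4) X]
    [IsManifold 𝓘(ℂ, Cm 4) ω X] [T2Space X] [CompactSpace X] [SimplyConnectedSpace X] {ι : Type}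
    {L : LineBundle 4 X ι} (h : IsPairNZ L) : HasMobilePair L (Nat.factorial 50) := by
  obtain ⟨w, s, ρ, hs, hρ, h, hne⟩ := h
  have hex := not_exact_of hne
  rcases h with ⟨F, c, hc, hθ, hdd⟩ | ⟨hn, h0, ψ, hψ, hz⟩
  · exact mobile_four_eff hs hρ F hc hθ hdd hex
  · exact ZL.mobile_four_zl hs hρ hn (INT.intX_eq_of_isIntegral h0) hex hψ hz

theorem IsPairOnly.hasMobilePair {X : Type} [TopologicalSpace X] [ChartedSpace (Cm 6) X]
    [IsManifold 𝓘(ℂ, Cm 6) ω X] [T2Space X] [CompactSpace X] [SimplyConnectedSpace X] {ι : Type}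
    {L : LineBundle 6 X ι} (h : IsPairOnly L) : HasMobilePair L (Nat.factorial 357) := by
  obtain ⟨w, s, ρ, hs, hρ, h, hne, ho⟩ := h
  have hex := not_exact_of hne
  rcases h with ⟨F, c, hc, hθ, hdd⟩ | ⟨hn, h0, ψ, hψ, hz⟩
  · exact Vale.Agent.P301.H949.mobile_six_eff hs hρ F hc hθ hdd hex ho
  · exact ZL.mobile_six_zl hs hρ hn (INT.intX_eq_of_isIntegral h0) hex hψ hz ho

end Vale.Agent.P301.H99
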