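import Vale.Agent.P301.H599.Stmt

/-! # Pairs with a parabolic automorphism -/

open scoped Manifold ContDiff ComplexOrder Topology

noncomputable section

namespace Vale.Agent.P301.H99

open Vale.Agent.P272.K Vale.Agent.P301.H599

variable {d : ℕ} {X : Type} [TopologicalSpace X] [ChartedSpace (Cm d) X] {ι : Type}

/-- The line bundle `L` on `X` is preserved by a parabolic automorphism: there are a Kähler metric
`w` and a holomorphic symplectic form `s` with `H⁰(X, Ω²) = ℂ s` on `X`, a smooth metric `ρ` on `L`,
an automorphism `F` of `X` and a number `c > 0` such that `F^* c₁(L) = c₁(L)` and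
`(F^* - 1)² [w] = c [curvature of L]`. -/
def IsParabolic (L : LineBundle d X ι) : Prop :=
  ∃ (w s : Chart d X → Cm d → Matrix (Fin d) (Fin d) ℂ) (ρ : ι → X → ℝ) (F : Auto d X) (c : ℝ),
    IsSymplectic d X w s ∧ IsMetric L ρ ∧ 0 < c ∧
    SameClass (pull F (curvature L ρ)) (curvature L ρ) ∧
    SameClass (fun e z => pull F (pull F w) e z - (2 : ℂ) • pull F w e z + w e z)
      (fun e z => (c : ℂ) • curvature L ρ e z)

end Vale.Agent.P301.H99
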