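import Vale.Agent.P301.H99.SatTwo
import Mathlib.FieldTheory.IsAlgClosed.Basic
import Mathlib.Analysis.Complex.Polynomial.Basic

/-! # Algebraic independence of three sections of a primitive bundle -/

open scoped Manifold ContDiff ComplexOrder Topology
open Filter Metric Set

set_option linter.all false

noncomputable section

namespace Vale.Agent.P301.H99

open Vale.Agent.P272.K Vale.Agent.P301.H599
open Vale.Agent.P301.H395 (IntSec)
open Vale.Agent.P301.H949 (OnlyL IntClass IsoPow)
open Vale.Agent.P301.H508 (Prim PrimX AnX moving factor_unique ev_chart ev_of_chart an_comp)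
open Vale.Agent.P301.H724 (at_chartAt)

section germs

variable {E : Type*} [NormedAddCommGroup E] [NormedSpace ℂ E]

/-- division by a germ which is coprime to one factor -/
lemma dvd_step {s l Q R : E → ℂ} {y : E} (hp : Prim (fun z => ![s z, l z]) y)
    (hQ : AnalyticAt ℂ Q y) (hR : AnalyticAt ℂ R y) (h : ∀ᶠ z in 𝓝 y, s z * Q z = l z * R z) :
    ∃ t : E → ℂ, AnalyticAt ℂ t y ∧ ∀ᶠ z in 𝓝 y, R z = s z * t z := by
  obtain ⟨t, ht, hte⟩ := hp.dvd (fun z => ![R z, Q z])
    (analyticAt_pi_iff.2 fun k => by fin_cases k; exacts [hR, hQ]) (by
      filter_upwards [h] with z hz i j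
      have h1 : R z * l z = Q z * s z := by linear_combination -hz
      fin_cases i <;> fin_cases j
      · rfl
      · exact h1
      · exact h1.symm
      · rfl)
  refine ⟨t, ht, ?_⟩
  filter_upwards [hte] with z hz
  have := congrFun hz 0
  simp at this
  rw [this, mul_comm]

/-- division by a germ which is coprime to all factors -/
lemma unit_of_prod {s : E → ℂ} {y : E} {n : ℕ} (l : Fin n → E → ℂ)
    (hp : ∀ k, Prim (fun z => ![s z, l k z]) y) {Q : E → ℂ} (hQ : AnalyticAt ℂ Q y)
    (hl : ∀ k, AnalyticAt ℂ (l k) y) (h : ∀ᶠ z in 𝓝 y, s z * Q z = ∏ k, l k z) : s y ≠ 0 := by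
  induction n generalizing Q with
  | zero =>
    intro h0
    have := h.self_of_nhds
    rw [h0, zero_mul] at this
    simp at this
  | succ n ih =>
    obtain ⟨t, ht, hte⟩ := dvd_step (hp 0) hQ (R := fun z => ∏ k : Fin n, l k.succ z)
      (Finset.analyticAt_fun_prod _ fun k _ => hl _) (by
        filter_upwards [h] with z hz
        rw [hz, Fin.prod_univ_succ])
    exact ih (fun k => l k.succ) (fun k => hp _) ht (fun k => hl _) (by
      filter_upwards [hte] with z hz
      exact hz.symm)

end germs

/-- factorisation of a binary form -/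
lemma binary_form {m : ℕ} {c : ℕ → ℂ} (hc : ∃ k, k ≤ m ∧ c k ≠ 0) :
    ∃ (a : ℂ) (p : Fin m → ℂ × ℂ), a ≠ 0 ∧ (∀ k, p k ≠ 0) ∧ ∀ x y : ℂ,
      ∑ b ∈ Finset.range (m + 1), c b * x ^ b * y ^ (m - b) =
        a * ∏ k, ((p k).1 * x + (p k).2 * y) := by
  induction m generalizing c with
  | zero =>
    obtain ⟨k, hk, hck⟩ := hc
    obtain rfl : k = 0 := by omega
    exact ⟨c 0, Fin.elim0, hck, fun k => k.elim0, fun x y => by simp⟩
  | succ m ih =>
    by_cases h0 : c (m + 1) = 0
    · -- divisible by `y`
      obtain ⟨k, hk, hck⟩ := hc
      have hk' : k ≤ m := by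
        rcases Nat.lt_or_ge k (m + 1) with h | h
        · omega
        · exact absurd (by rw [show k = m + 1 by omega]; exact h0) hck
      obtain ⟨a, p, ha, hp, hap⟩ := ih ⟨k, hk', hck⟩
      refine ⟨a, Fin.cons (0, 1) p, ha, fun k => ?_, fun x y => ?_⟩
      · refine Fin.cases ?_ (fun k => ?_) k
        · rw [Fin.cons_zero]
          intro h
          exact one_ne_zero (congrArg Prod.snd h)
        · rw [Fin.cons_succ]; exact hp k
      · rw [Finset.sum_range_succ, h0, Fin.prod_univ_succ]
        simp only [Fin.cons_zero, Fin.cons_succ, zero_mul, add_zero, one_mul, zero_add]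
        have h1 : ∑ b ∈ Finset.range (m + 1), c b * x ^ b * y ^ (m + 1 - b) =
            y * ∑ b ∈ Finset.range (m + 1), c b * x ^ b * y ^ (m - b) := by
          rw [Finset.mul_sum]
          refine Finset.sum_congr rfl fun b hb => ?_
          rw [Finset.mem_range] at hb
          rw [show m + 1 - b = (m - b) + 1 by omega, pow_succ]
          ring
        rw [h1, hap]
        ring
    · -- a root
      set P : Polynomial ℂ := ∑ b ∈ Finset.range (m + 2), Polynomial.C (c b) * Polynomial.X ^ b
        with hP
      have hPdeg : P.coeff (m + 1) = c (m + 1) := by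
        rw [hP, Polynomial.finset_sum_coeff]
        simp only [Polynomial.coeff_C_mul_X_pow]
        rw [Finset.sum_ite_eq]
        simp
      have hPd : P.degree ≠ 0 := by
        intro h
        have h1 : P.natDegree = 0 := Polynomial.natDegree_eq_of_degree_eq_some h
        have h2 := Polynomial.coeff_eq_zero_of_natDegree_lt (p := P) (n := m + 1) (by omega)
        rw [hPdeg] at h2
        exact h0 h2
      obtain ⟨r, hr⟩ := IsAlgClosed.exists_root P hPd
      have hroot : ∑ b ∈ Finset.range (m + 2), c b * r ^ b = 0 := by
        have h1 : P.eval r = 0 := hr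
        rw [hP, Polynomial.eval_finset_sum] at h1
        simpa using h1
      -- quotient by `x - r y`
      set q : ℕ → ℂ := fun b => ∑ i ∈ Finset.range (m + 2), if b < i then c i * r ^ (i - 1 - b) else 0
        with hq
      have hqm : q m = c (m + 1) := by
        rw [hq]
        simp only
        rw [Finset.sum_eq_single (m + 1)]
        · simp
        · intro b hb hbm
          rw [Finset.mem_range] at hb
          rw [if_neg (by omega)]
        · intro h; exact absurd (Finset.mem_range.2 (by omega)) h
      have hstep : ∀ b, q b = c (b + 1) * (if b + 1 < m + 2 then 1 else 0) + r * q (b + 1) := by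
        intro b
        rw [hq]
        simp only
        rw [Finset.mul_sum]
        have h1 : ∀ i ∈ Finset.range (m + 2), (if b < i then c i * r ^ (i - 1 - b) else 0) =
            (if i = b + 1 then c i else 0) + r * (if b + 1 < i then c i * r ^ (i - 1 - (b + 1)) else 0) := by
          intro i _
          rcases lt_trichotomy i (b + 1) with h | h | h
          · rw [if_neg (by omega), if_neg (by omega), if_neg (by omega)]; ring
          · subst h
            rw [if_pos (by omega), if_pos rfl, if_neg (by omega)]
            simp
          · rw [if_pos (by omega), if_neg (by omega), if_pos h]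
            rw [show i - 1 - b = (i - 1 - (b + 1)) + 1 by omega, pow_succ]
            ring
        rw [Finset.sum_congr rfl h1, Finset.sum_add_distrib, Finset.sum_ite_eq']
        congr 1
        by_cases hb : b + 1 < m + 2
        · rw [if_pos (Finset.mem_range.2 hb), if_pos hb, mul_one]
        · rw [if_neg (fun h => hb (Finset.mem_range.1 h)), if_neg hb, mul_zero]
      have hq0 : c 0 + r * q 0 = 0 := by
        rw [← hroot, hq]
        simp only
        rw [Finset.sum_range_succ' (fun b => c b * r ^ b), Finset.mul_sum,
          Finset.sum_range_succ' _ (m + 1)]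
        simp only [pow_zero, mul_one, lt_irrefl, if_false, mul_zero, add_zero, Nat.succ_pos', if_true]
        rw [add_comm]
        congr 1
        refine Finset.sum_congr rfl fun i _ => ?_
        rw [show i + 1 - 1 - 0 = i by omega, pow_succ]
        ring
      obtain ⟨a, p, ha, hp, hap⟩ := ih (c := q) ⟨m, le_rfl, by rw [hqm]; exact h0⟩
      refine ⟨a, Fin.cons (1, -r) p, ha, fun k => ?_, fun x y => ?_⟩
      · refine Fin.cases ?_ (fun k => ?_) k
        · rw [Fin.cons_zero]
          intro h
          exact one_ne_zero (congrArg Prod.fst h)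
        · rw [Fin.cons_succ]; exact hp k
      · rw [Fin.prod_univ_succ]
        simp only [Fin.cons_zero, Fin.cons_succ, one_mul]
        have h1 : a * ((x + -r * y) * ∏ k, ((p k).1 * x + (p k).2 * y)) =
            (x + -r * y) * ∑ b ∈ Finset.range (m + 1), q b * x ^ b * y ^ (m - b) := by
          rw [hap]; ring
        rw [h1, add_mul, Finset.mul_sum, Finset.mul_sum, Finset.sum_range_succ' _ (m + 1)]
        have h2 : ∑ b ∈ Finset.range (m + 1), c (b + 1) * x ^ (b + 1) * y ^ (m + 1 - (b + 1)) =
            ∑ b ∈ Finset.range (m + 1), x * (q b * x ^ b * y ^ (m - b)) -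
              ∑ b ∈ Finset.range (m + 1), r * q (b + 1) * x ^ (b + 1) * y ^ (m - b) := by
          rw [← Finset.sum_sub_distrib]
          refine Finset.sum_congr rfl fun b hb => ?_
          rw [Finset.mem_range] at hb
          have h3 := hstep b
          rw [if_pos (by omega), mul_one] at h3
          rw [show m + 1 - (b + 1) = m - b by omega, h3]
          ring
        have h3 : ∑ b ∈ Finset.range (m + 1), -r * y * (q b * x ^ b * y ^ (m - b)) =
            c 0 * y ^ (m + 1) - ∑ b ∈ Finset.range (m + 1), r * q (b + 1) * x ^ (b + 1) * y ^ (m - b) := by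
          have h4 : q (m + 1) = 0 := by
            rw [hq]
            simp only
            refine Finset.sum_eq_zero fun i hi => ?_
            rw [Finset.mem_range] at hi
            rw [if_neg (by omega)]
          rw [Finset.sum_range_succ' _ m, Finset.sum_range_succ (fun b => r * q (b + 1) * x ^ (b + 1) * y ^ (m - b)) m,
            h4]
          have h5 : ∑ b ∈ Finset.range m, -r * y * (q (b + 1) * x ^ (b + 1) * y ^ (m - (b + 1))) =
              -∑ b ∈ Finset.range m, r * q (b + 1) * x ^ (b + 1) * y ^ (m - b) := by
            rw [← Finset.sum_neg_distrib]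
            refine Finset.sum_congr rfl fun b hb => ?_
            rw [Finset.mem_range] at hb
            rw [show m - b = (m - (b + 1)) + 1 by omega, pow_succ]
            ring
          rw [h5]
          have h6 : -r * y * (q 0 * x ^ 0 * y ^ (m - 0)) = c 0 * y ^ (m + 1) := by
            rw [pow_zero, mul_one, Nat.sub_zero, pow_succ]
            linear_combination (-y ^ m * y) * hq0
          rw [h6]
          ring
        rw [h2, h3]
        simp only [pow_zero, mul_one, Nat.sub_zero]
        ring

end Vale.Agent.P301.H99
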