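import Vale.Agent.P301.H99.AlgInd
import Vale.Agent.P301.H99.LimN

/-! # Algebraic independence of three sections of a primitive bundle: global part -/

open scoped Manifold ContDiff ComplexOrder Topology
open Filter Metric Set

set_option linter.all false

noncomputable section

namespace Vale.Agent.P301.H99

open Vale.Agent.P272.K Vale.Agent.P301.H599
open Vale.Agent.P301.H395 (IntSec)
open Vale.Agent.P301.H949 (OnlyL IntClass IsoPow intSec_mul intSec_pow intSec_one intSec_zero
  exact_of_neg exact_of_ne_zero ne_zero_mul)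
open Vale.Agent.P301.H508 (Prim PrimX AnX moving factor_unique ev_chart ev_of_chart an_comp)
open Vale.Agent.P301.H724 (at_chartAt)

variable {d : ℕ} {X : Type} [TopologicalSpace X] [ChartedSpace (Cm d) X]
  {ι : Type} {L : LineBundle d X ι} {ρ : ι → X → ℝ}

lemma intSec_comb {k : ℤ} {α : Type*} (S : Finset α) {f : α → ι → X → ℂ}
    (hf : ∀ a ∈ S, IntSec L k (f a)) (c : α → ℂ) :
    IntSec L k fun i x => ∑ a ∈ S, c a * f a i x where
  holo i e x he hi := Finset.analyticAt_fun_sum _ fun a ha =>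
    analyticAt_const.mul ((hf a ha).holo i e x he hi)
  ch i j x hi hj := by
    rw [Finset.mul_sum]
    refine Finset.sum_congr rfl fun a ha => ?_
    rw [(hf a ha).ch i j x hi hj]
    ring

variable [IsManifold 𝓘(ℂ, Cm d) ω X] [T2Space X] [CompactSpace X] [SimplyConnectedSpace X]

/-- **Two independent sections of a primitive bundle are coprime.** -/
theorem prim_pair (hρ : IsMetric L ρ) (ho : OnlyL L ρ) (hi : IntClass L ρ)
    (hex : ¬ H450.IsExact (curvature L ρ)) {f : Fin 2 → ι → X → ℂ}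
    (hf : ∀ k, IntSec L 1 (f k))
    (hind : ∀ α β : ℂ, (∀ i x, x ∈ L.U i → α * f 0 i x + β * f 1 i x = 0) → α = 0 ∧ β = 0)
    (i : ι) (x : X) (hx : x ∈ L.U i) : PrimX (d := d) (fun y k => f k i y) x := by
  have hne : ∃ k i x, x ∈ L.U i ∧ f k i x ≠ 0 := by
    by_contra hcon
    push Not at hcon
    exact one_ne_zero (hind 1 1 fun i x hx => by rw [hcon 0 i x hx, hcon 1 i x hx]; ring).1
  obtain ⟨j, T, R, hT, hR, hTp, hfR⟩ := sat2 hρ ho hi hf hne
  obtain ⟨k0, i0, x0, hx0, hk0⟩ := hne
  have hT0 : ∃ i x, x ∈ L.U i ∧ T k0 i x ≠ 0 := ⟨i0, x0, hx0, fun h => hk0 (by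
    rw [hfR k0 i0 x0 hx0, h, mul_zero])⟩
  have hR0 : ∃ i x, x ∈ L.U i ∧ R i x ≠ 0 := ⟨i0, x0, hx0, fun h => hk0 (by
    rw [hfR k0 i0 x0 hx0, h, zero_mul])⟩
  have hf0 : ∃ i x, x ∈ L.U i ∧ f k0 i x ≠ 0 := ⟨i0, x0, hx0, hk0⟩
  have hj0 : 0 ≤ j := by
    by_contra hcon
    push Not at hcon
    obtain ⟨n, hn⟩ : ∃ n : ℕ, j = -(n : ℤ) := ⟨(-j).toNat, by omega⟩
    have h1 := hT k0
    rw [hn] at h1
    exact hex (exact_of_neg hρ (hf k0) hf0 (by omega : 0 < n) h1 hT0)
  have hj1 : j ≤ 1 := by
    by_contra hcon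
    push Not at hcon
    obtain ⟨n, hn⟩ : ∃ n : ℕ, 1 - j = -(n : ℤ) := ⟨(-(1 - j)).toNat, by omega⟩
    rw [hn] at hR
    exact hex (exact_of_neg hρ (hf k0) hf0 (by omega : 0 < n) hR hR0)
  rcases (show j = 0 ∨ j = 1 by omega) with rfl | rfl
  · exfalso
    choose a ha using fun k => intSec_zero (hT k)
    have h1 := hind (a 1) (-a 0) fun i x hx => by
      rw [hfR 0 i x hx, hfR 1 i x hx, ha 0 i x hx, ha 1 i x hx]
      ring
    obtain ⟨i1, x1, hx1, h2⟩ := hT0
    apply h2
    rw [ha k0 i1 x1 hx1]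
    fin_cases k0
    · simpa using h1.2
    · exact h1.1
  · rw [sub_self] at hR
    obtain ⟨a, ha⟩ := intSec_zero hR
    have ha0 : a ≠ 0 := by
      rintro rfl
      obtain ⟨i1, x1, hx1, h2⟩ := hR0
      exact h2 (ha i1 x1 hx1)
    intro e he
    have h4 := H395.prim_twist (A := fun _ => 1) (B := fun _ => 1) (c := fun _ => a) (hTp i x hx e he)
      analyticAt_const ha0 (fun k l => analyticAt_const) (fun k l => analyticAt_const)
      (Eventually.of_forall fun z => ⟨by simp, by simp⟩)
    refine H395.prim_congr h4 ?_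
    filter_upwards [ev_chart (p := fun y => y ∈ L.U i) he ((L.isOpen i).mem_nhds hx)] with z hz
    funext k
    rw [Matrix.one_mulVec]
    show a * T k i (e.symm z) = f k i (e.symm z)
    rw [hfR k i _ hz, ha i _ hz]

/-- a nonexact bundle: sections have zeros -/
lemma exists_zero (hρ : IsMetric L ρ) (hex : ¬ H450.IsExact (curvature L ρ)) {f : ι → X → ℂ}
    (hf : IntSec L 1 f) : ∃ i x, x ∈ L.U i ∧ f i x = 0 := by
  by_contra hcon
  push Not at hcon
  exact hex (exact_of_ne_zero hρ hf fun i x hx => hcon i x hx)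

/-- **Binary forms are not divisible.** If `s` is not a combination of `u`, `v`, then a nonzero
binary form in `u`, `v` is not a multiple of `s`. -/
theorem binary_ne (hρ : IsMetric L ρ) (ho : OnlyL L ρ) (hi : IntClass L ρ)
    (hex : ¬ H450.IsExact (curvature L ρ)) {s u v : ι → X → ℂ} (hs : IntSec L 1 s)
    (hu : IntSec L 1 u) (hv : IntSec L 1 v)
    (hind : ∀ α β γ : ℂ, (∀ i x, x ∈ L.U i → α * s i x + β * u i x + γ * v i x = 0) →
      α = 0 ∧ β = 0 ∧ γ = 0) {m : ℕ} {c : ℕ → ℂ} {k : ℤ} {Q : ι → X → ℂ} (hQ : IntSec L k Q)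
    (h : ∀ i x, x ∈ L.U i →
      ∑ b ∈ Finset.range (m + 1), c b * u i x ^ b * v i x ^ (m - b) = s i x * Q i x) :
    ∀ b, b ≤ m → c b = 0 := by
  by_contra hcon
  push Not at hcon
  obtain ⟨a, p, ha, hp, hap⟩ := binary_form hcon
  obtain ⟨i, x, hx, hx0⟩ := exists_zero hρ hex hs
  have he := at_chartAt (d := d) x
  set e := chartAt (Cm d) x with hedef
  have hl : ∀ k, IntSec L 1 fun i x => (p k).1 * u i x + (p k).2 * v i x := by
    intro k
    have h1 := intSec_comb (L := L) (k := 1) (Finset.univ : Finset (Fin 2)) (f := ![u, v])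
      (fun a _ => by fin_cases a; exacts [hu, hv]) ![(p k).1, (p k).2]
    simpa [Fin.sum_univ_two] using h1
  have hprim : ∀ k, Prim (fun z => ![s i (e.symm z), (p k).1 * u i (e.symm z) +
      (p k).2 * v i (e.symm z)]) (e x) := by
    intro k
    have h1 := prim_pair hρ ho hi hex
      (f := ![s, fun i x => (p k).1 * u i x + (p k).2 * v i x]) (fun a => by
        fin_cases a; exacts [hs, hl k]) (fun α β hαβ => by
        have h2 := hind α (β * (p k).1) (β * (p k).2) (fun i x hx => by
          have := hαβ i x hx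
          simp only [Matrix.cons_val_zero, Matrix.cons_val_one] at this
          linear_combination this)
        refine ⟨h2.1, ?_⟩
        by_contra hβ
        exact hp k (Prod.ext ((mul_eq_zero.1 h2.2.1).resolve_left hβ)
          ((mul_eq_zero.1 h2.2.2).resolve_left hβ))) i x hx e he
    refine H395.prim_congr h1 (Eventually.of_forall fun z => ?_)
    funext a
    fin_cases a <;> rfl
  refine unit_of_prod (s := fun z => s i (e.symm z)) (y := e x)
    (fun k z => (p k).1 * u i (e.symm z) + (p k).2 * v i (e.symm z)) hprim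
    (Q := fun z => a⁻¹ * Q i (e.symm z)) (analyticAt_const.mul (hQ.holo i e x he hx))
    (fun k => (hl k).holo i e x he hx) ?_ (by
      show s i (e.symm (e x)) = 0
      rw [e.left_inv he.2]
      exact hx0)
  filter_upwards [ev_chart (p := fun y => y ∈ L.U i) he ((L.isOpen i).mem_nhds hx)] with z hz
  have h1 := h i _ hz
  rw [hap] at h1
  have h2 : s i (e.symm z) * (a⁻¹ * Q i (e.symm z)) = a⁻¹ * (s i (e.symm z) * Q i (e.symm z)) := by
    ring
  rw [h2, ← h1, ← mul_assoc, inv_mul_cancel₀ ha, one_mul]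

/-- **Three independent sections of a primitive bundle are algebraically independent.** -/
theorem alg_ind (hρ : IsMetric L ρ) (ho : OnlyL L ρ) (hi : IntClass L ρ)
    (hex : ¬ H450.IsExact (curvature L ρ)) {s u v : ι → X → ℂ} (hs : IntSec L 1 s)
    (hu : IntSec L 1 u) (hv : IntSec L 1 v)
    (hind : ∀ α β γ : ℂ, (∀ i x, x ∈ L.U i → α * s i x + β * u i x + γ * v i x = 0) →
      α = 0 ∧ β = 0 ∧ γ = 0) (m : ℕ) (c : ℕ → ℕ → ℂ)
    (h : ∀ i x, x ∈ L.U i → ∑ a ∈ Finset.range (m + 1), ∑ b ∈ Finset.range (m + 1 - a),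
      c a b * (s i x ^ a * u i x ^ b * v i x ^ (m - a - b)) = 0) :
    ∀ a b, a + b ≤ m → c a b = 0 := by
  induction m generalizing c with
  | zero =>
    intro a b hab
    obtain ⟨rfl, rfl⟩ : a = 0 ∧ b = 0 := by omega
    obtain ⟨x⟩ : Nonempty X := inferInstance
    obtain ⟨i, hx⟩ := L.cover x
    simpa using h i x hx
  | succ m ih =>
    -- the quotient
    set Q : ι → X → ℂ := fun i x => ∑ a ∈ Finset.range (m + 1), ∑ b ∈ Finset.range (m + 1 - a),
      c (a + 1) b * (s i x ^ a * u i x ^ b * v i x ^ (m - a - b)) with hQ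
    have hQs : IntSec L (m : ℤ) Q := by
      have h1 := intSec_comb (L := L) (k := (m : ℤ))
        ((Finset.range (m + 1)).sigma fun a => Finset.range (m + 1 - a))
        (f := fun p i x => s i x ^ p.1 * u i x ^ p.2 * v i x ^ (m - p.1 - p.2)) (fun p hp => by
          simp only [Finset.mem_sigma, Finset.mem_range] at hp
          have h2 := intSec_mul (intSec_mul (intSec_pow hs p.1) (intSec_pow hu p.2))
            (intSec_pow hv (m - p.1 - p.2))
          have h3 : (p.1 : ℤ) * 1 + (p.2 : ℤ) * 1 + ((m - p.1 - p.2 : ℕ) : ℤ) * 1 = (m : ℤ) := by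
            omega
          rwa [h3] at h2) (fun p => c (p.1 + 1) p.2)
      have h2 : (fun (i : ι) (x : X) => ∑ p ∈ (Finset.range (m + 1)).sigma fun a =>
          Finset.range (m + 1 - a), c (p.1 + 1) p.2 *
            (s i x ^ p.1 * u i x ^ p.2 * v i x ^ (m - p.1 - p.2))) = Q := by
        funext i x
        rw [hQ, Finset.sum_sigma]
      rwa [h2] at h1
    have hsplit : ∀ i x, ∑ a ∈ Finset.range (m + 1 + 1), ∑ b ∈ Finset.range (m + 1 + 1 - a),
        c a b * (s i x ^ a * u i x ^ b * v i x ^ (m + 1 - a - b)) =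
        s i x * Q i x + ∑ b ∈ Finset.range (m + 1 + 1), c 0 b * u i x ^ b * v i x ^ (m + 1 - b) := by
      intro i x
      rw [Finset.sum_range_succ' _ (m + 1), hQ]
      simp only [Finset.mul_sum]
      congr 1
      · refine Finset.sum_congr rfl fun a ha => ?_
        rw [show m + 1 + 1 - (a + 1) = m + 1 - a by omega]
        refine Finset.sum_congr rfl fun b hb => ?_
        rw [show m + 1 - (a + 1) - b = m - a - b by omega]
        ring
      · rw [Nat.sub_zero]
        refine Finset.sum_congr rfl fun b hb => ?_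
        rw [Nat.sub_zero]
        ring
    have h0 : ∀ b, b ≤ m + 1 → c 0 b = 0 := by
      refine binary_ne hρ ho hi hex hs hu hv hind (m := m + 1) (c := c 0) (k := (m : ℤ))
        (Q := fun i x => ∑ a ∈ (Finset.univ : Finset Unit), (-1 : ℂ) * Q i x)
        (intSec_comb Finset.univ (fun _ _ => hQs) fun _ => -1) fun i x hx => ?_
      have h1 := h i x hx
      rw [hsplit i x] at h1
      simp only [Finset.univ_unique, Finset.sum_singleton]
      linear_combination h1
    have hprod : ∀ i x, x ∈ L.U i → s i x * Q i x = 0 := by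
      intro i x hx
      have h1 := h i x hx
      rw [hsplit i x, Finset.sum_eq_zero (s := Finset.range (m + 1 + 1)) (fun b hb => by
        rw [h0 b (by have := Finset.mem_range.1 hb; omega), zero_mul, zero_mul]), add_zero] at h1
      exact h1
    have hs0 : ∃ i x, x ∈ L.U i ∧ s i x ≠ 0 := by
      by_contra hcon
      push Not at hcon
      exact one_ne_zero (hind 1 0 0 fun i x hx => by rw [hcon i x hx]; ring).1
    have hQ0 : ∀ i x, x ∈ L.U i → Q i x = 0 := by
      by_contra hcon
      push Not at hcon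
      obtain ⟨i, x, hx, h1⟩ := ne_zero_mul hs hs0 hQs hcon
      exact h1 (hprod i x hx)
    have h1 := ih (fun a b => c (a + 1) b) hQ0
    intro a b hab
    rcases a with _ | a
    · exact h0 b (by omega)
    · exact h1 a b (by omega)

end Vale.Agent.P301.H99
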