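import Vale.Agent.P301.H450.EffPar
import Vale.Agent.P301.H99.Lim3
import Vale.Agent.P301.H99.Par

/-! # Effective nonvanishing for limits of parabolic pairs -/

open scoped Manifold ContDiff ComplexOrder Topology
open Filter Vale.Agent.P272.K Vale.Agent.P301.H599 Vale.Agent.P301.H99

namespace Vale.Agent.P301.H99

/-- For every `d` there is `K > 0` with the following property. Let `Y n`, `n = 0, 1, 2, …`, be
compact simply connected Kähler manifolds of dimension `d` with a holomorphic symplectic form
generating `H⁰(Y n, Ω²)`, that is, irreducible holomorphic symplectic Kähler manifolds, and `M n`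
line bundles on `Y n` preserved by a parabolic automorphism `F n`, that is
`(F n)^* c₁(M n) = c₁(M n)` and `((F n)^* - 1)² [w n] = c n • [curvature of M n]`, `c n > 0`. Let
the pair `(X, L)` of a compact complex manifold and a line bundle be a limit of the pairs
`(Y n, M n)`: in homeomorphisms `X ≃ Y n`, charts and transition functions of `(Y n, M n)` converge
locally uniformly to charts and transition functions of `(X, L)`. Then the power `L^K` has a nonzero
holomorphic section `f`: the functions `f i` are holomorphic on the open sets `U i` of the cocycle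
of `L`, `f i = (g i j)^K f j` on `U i ∩ U j`, and `f` is not identically zero. -/
theorem eff_main :
    ∀ d : ℕ, ∃ K : ℕ, 0 < K ∧
      ∀ (X : Type) [TopologicalSpace X] [T2Space X] [CompactSpace X]
        [ChartedSpace (Cm d) X] [IsManifold 𝓘(ℂ, Cm d) ω X]
        (ι : Type) (L : LineBundle d X ι)
        (Y : ℕ → Type) [∀ n, TopologicalSpace (Y n)] [∀ n, T2Space (Y n)]
        [∀ n, CompactSpace (Y n)] [∀ n, SimplyConnectedSpace (Y n)]
        [∀ n, ChartedSpace (Cm d) (Y n)] [∀ n, IsManifold 𝓘(ℂ, Cm d) ω (Y n)]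
        (κ : ℕ → Type) (M : ∀ n, LineBundle d (Y n) (κ n)),
        (∀ n, IsParabolic (M n)) → IsLimit L Y κ M →
        ∃ f : ι → X → ℂ,
          (∀ i (e : Chart d X) x, At e x → x ∈ L.U i →
            AnalyticAt ℂ (fun z => f i (e.symm z)) (e x)) ∧
          (∀ i j x, x ∈ L.U i → x ∈ L.U j → f i x = L.g i j x ^ K * f j x) ∧
          ∃ i x, x ∈ L.U i ∧ f i x ≠ 0 := by
  intro d
  refine ⟨(Vale.Agent.P301.H450.Mb d).factorial, Nat.factorial_pos _, ?_⟩
  intro X _ _ _ _ _ ι L Y _ _ _ _ _ _ κ M hM hlim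
  obtain ⟨N, ⟨C⟩⟩ := hlim
  obtain ⟨F, hF, hne⟩ := C.one_sec (K := (Vale.Agent.P301.H450.Mb d).factorial) fun n => by
    obtain ⟨w, s, ρ, F, c, hs, hρ, hc, hθ, hdd⟩ := hM n
    obtain ⟨f, h1, h2, h3⟩ := Vale.Agent.P301.H450.eff_nonvanishing hs hρ F hc hθ hdd
    exact ⟨f, ⟨h1, h2⟩, h3⟩
  exact ⟨F, hF.1, hF.2, hne⟩

end Vale.Agent.P301.H99
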