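import Vale.Agent.P301.H99.Lim
import Vale.Agent.P268.Hol

/-! # Limits of sections -/

open scoped Manifold ContDiff ComplexOrder Topology
open Filter Metric Set

set_option linter.all false

noncomputable section

namespace Vale.Agent.P301.H99

open Vale.Agent.P272.K Vale.Agent.P301.H599

variable {d : ℕ} {X : Type} [TopologicalSpace X] [ChartedSpace (Cm d) X] {ι : Type}
  {L : LineBundle d X ι}
  {Y : ℕ → Type} [∀ n, TopologicalSpace (Y n)] [∀ n, ChartedSpace (Cm d) (Y n)] {κ : ℕ → Type}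
  {M : ∀ n, LineBundle d (Y n) (κ n)} {N : ℕ}

lemma Sec.continuousAt {L : LineBundle d X ι} {k : ℕ} {f : ι → X → ℂ} (hf : Sec L k f) {i : ι}
    {x : X} (hx : x ∈ L.U i) : ContinuousAt (f i) x :=
  continuousAt_of_at fun c hc => hf.1 i c x hc hx

lemma g_continuousAt (L : LineBundle d X ι) {i j : ι} {x : X} (hi : x ∈ L.U i) (hj : x ∈ L.U j) :
    ContinuousAt (L.g i j) x :=
  continuousAt_of_at fun c hc => L.holo i j c x hc hi hj

namespace Conv

/-- Local bound for the sections. -/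
lemma bdd (C : Conv L Y κ M N) {K : ℕ} {W : Fin N → Set X} (hWo : ∀ a, IsOpen (W a))
    (hWc : ∀ x, ∃ a, x ∈ W a) (hWV : ∀ a, closure (W a) ⊆ C.V a) {f : ∀ n, κ n → Y n → ℂ}
    (hf : ∀ n, Sec (M n) K (f n))
    (hb : ∀ n a x, x ∈ closure (W a) → ‖f n (C.i' n a) (C.φ n x)‖ ≤ 1) {a : Fin N} {x : X}
    (hx : x ∈ C.V a) :
    ∃ O : Set X, IsOpen O ∧ x ∈ O ∧ O ⊆ C.V a ∧ ∃ B : ℝ, ∀ᶠ n in atTop, ∀ y ∈ O,
      ‖f n (C.i' n a) (C.φ n y)‖ ≤ B := by
  obtain ⟨b, hb'⟩ := hWc x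
  have hWb : W b ⊆ C.V b := subset_closure.trans (hWV b)
  have hxb : x ∈ C.V b := hWb hb'
  have h1 := C.tendsto_frame a b
  rw [Metric.tendstoLocallyUniformlyOn_iff] at h1
  obtain ⟨t, ht, h2⟩ := h1 1 one_pos x ⟨hx, hxb⟩
  have hVo : IsOpen (C.V a ∩ C.V b) := (C.isOpen a).inter (C.isOpen b)
  rw [hVo.nhdsWithin_eq ⟨hx, hxb⟩] at ht
  have h3 : ∀ᶠ y in 𝓝 x, ‖L.g (C.i a) (C.i b) y‖ < ‖L.g (C.i a) (C.i b) x‖ + 1 :=
    (g_continuousAt L (C.source a x hx).2 (C.source b x hxb).2).norm.eventually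
      (gt_mem_nhds (by linarith))
  have h4 : ∀ᶠ y in 𝓝 x, y ∈ t ∧ y ∈ C.V a ∧ y ∈ W b ∧
      ‖L.g (C.i a) (C.i b) y‖ < ‖L.g (C.i a) (C.i b) x‖ + 1 := by
    filter_upwards [ht, (C.isOpen a).mem_nhds hx, (hWo b).mem_nhds hb', h3] with y h5 h6 h7 h8
    exact ⟨h5, h6, h7, h8⟩
  obtain ⟨O, hO, hOo, hxO⟩ := eventually_nhds_iff.1 h4
  refine ⟨O, hOo, hxO, fun y hy => (hO y hy).2.1, (‖L.g (C.i a) (C.i b) x‖ + 2) ^ K, ?_⟩
  filter_upwards [h2] with n hn y hy
  obtain ⟨h5, h6, h7, h8⟩ := hO y hy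
  have h9 := hn y h5
  rw [dist_comm, dist_eq_norm] at h9
  have h10 : ‖(M n).g (C.i' n a) (C.i' n b) (C.φ n y)‖ ≤ ‖L.g (C.i a) (C.i b) x‖ + 2 := by
    have := norm_le_norm_add_norm_sub' ((M n).g (C.i' n a) (C.i' n b) (C.φ n y))
      (L.g (C.i a) (C.i b) y)
    linarith
  rw [(hf n).2 _ (C.i' n b) _ (C.source' n a y h6).2 (C.source' n b y (hWb h7)).2, norm_mul,
    norm_pow]
  have h11 := hb n b y (subset_closure h7)
  calc _ ≤ (‖L.g (C.i a) (C.i b) x‖ + 2) ^ K * 1 := by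
        refine mul_le_mul (pow_le_pow_left₀ (norm_nonneg _) h10 K) h11 (norm_nonneg _)
          (by positivity)
    _ = _ := mul_one _

/-- **Limits of sections.** -/
theorem exists_limit [IsManifold 𝓘(ℂ, Cm d) ω X] [∀ n, IsManifold 𝓘(ℂ, Cm d) ω (Y n)]
    (C : Conv L Y κ M N) (𝒰 : Ultrafilter ℕ) (h𝒰 : (𝒰 : Filter ℕ) ≤ atTop) {K : ℕ}
    {W : Fin N → Set X} (hWo : ∀ a, IsOpen (W a))
    (hWc : ∀ x, ∃ a, x ∈ W a) (hWV : ∀ a, closure (W a) ⊆ C.V a) {f : ∀ n, κ n → Y n → ℂ}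
    (hf : ∀ n, Sec (M n) K (f n))
    (hb : ∀ n a x, x ∈ closure (W a) → ‖f n (C.i' n a) (C.φ n x)‖ ≤ 1) :
    ∃ F : ι → X → ℂ, Sec L K F ∧ ∀ a, ∀ x ∈ C.V a, ∀ u : ℕ → X, Tendsto u 𝒰 (𝓝 x) →
      Tendsto (fun n => f n (C.i' n a) (C.φ n (u n))) 𝒰 (𝓝 (F (C.i a) x)) := by
  classical
  -- the functions in the charts
  set q : Fin N → ℕ → Cm d → ℂ := fun a n z => f n (C.i' n a) ((C.e' n a).symm z) with hq
  set U : Fin N → Set (Cm d) := fun a => (C.e a).target ∩ (C.e a).symm ⁻¹' C.V a with hU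
  have hUo : ∀ a, IsOpen (U a) := fun a => (C.e a).isOpen_inter_preimage_symm (C.isOpen a)
  have hUm : ∀ a x, x ∈ C.V a → C.e a x ∈ U a := by
    intro a x hx
    refine ⟨(C.e a).map_source (C.source a x hx).1, ?_⟩
    rw [mem_preimage, (C.e a).left_inv (C.source a x hx).1]
    exact hx
  have hloc : ∀ a, Vale.Agent.P299.H720.LocBdd (𝒰 : Filter ℕ) (q a) (U a) := by
    intro a z hz
    set x := (C.e a).symm z with hxdef
    have hx : x ∈ C.V a := hz.2
    have hxz : C.e a x = z := (C.e a).right_inv hz.1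
    obtain ⟨O, hO, hxO, hOV, B, hB⟩ := C.bdd hWo hWc hWV hf hb hx
    obtain ⟨r, hr, hfull⟩ := C.full hO hxO hOV
    refine ⟨r, hr, B, ?_⟩
    filter_upwards [h𝒰 hB, h𝒰 hfull] with n h1 h2
    rw [hxz] at h2
    refine ⟨fun w hw => ?_, fun w hw => ?_⟩
    · obtain ⟨h3, y, hy, h4⟩ := h2 w hw
      have h5 := C.source' n a y (hOV hy)
      have h6 : C.e' n a (C.φ n y) = w := by rw [← h4]; exact (C.e' n a).right_inv h3
      have h7 := analytic_of_at (x := C.φ n y) (f := f n (C.i' n a))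
        (fun c hc => (hf n).1 _ c _ hc h5.2) (C.chart' n a) h5.1
      rw [h6] at h7
      exact h7.differentiableAt.differentiableWithinAt
    · obtain ⟨h3, y, hy, h4⟩ := h2 w hw
      simp only [hq]
      rw [h4]
      exact h1 y hy
  choose G hG1 hG2 hG3 using fun a =>
    Vale.Agent.P299.H720.montel_full 𝒰 (hUo a) (hloc a)
  have hcc : ∀ a, ∀ x ∈ C.V a, ContinuousAt (C.e a) x := fun a x hx =>
    (C.e a).continuousAt (C.source a x hx).1
  -- convergence along sequences of points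
  have hconv : ∀ a, ∀ x ∈ C.V a, ∀ u : ℕ → X, Tendsto u 𝒰 (𝓝 x) →
      Tendsto (fun n => f n (C.i' n a) (C.φ n (u n))) 𝒰 (𝓝 (G a (C.e a x))) := by
    intro a x hx u hu
    have h1 : Tendsto (fun n => C.e' n a (C.φ n (u n))) 𝒰 (𝓝 (C.e a x)) := by
      have h2 : Tendsto u 𝒰 (𝓝[C.V a] x) := by
        rw [(C.isOpen a).nhdsWithin_eq hx]; exact hu
      exact (locUnif_mono (C.tendsto_chart a) h𝒰).tendsto_comp
        (hcc a x hx).continuousWithinAt hx h2
    refine (hG3 a _ (hUm a x hx) _ h1).congr' ?_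
    filter_upwards [hu ((C.isOpen a).mem_nhds hx)] with n hn
    simp only [hq]
    rw [(C.e' n a).left_inv (C.source' n a _ hn).1]
  -- compatibility
  have hcomp : ∀ a b x, x ∈ C.V a → x ∈ C.V b →
      G a (C.e a x) = L.g (C.i a) (C.i b) x ^ K * G b (C.e b x) := by
    intro a b x ha hb'
    have h1 := hconv a x ha (fun _ => x) tendsto_const_nhds
    have h2 := hconv b x hb' (fun _ => x) tendsto_const_nhds
    have h3 : Tendsto (fun n => (M n).g (C.i' n a) (C.i' n b) (C.φ n x)) 𝒰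
        (𝓝 (L.g (C.i a) (C.i b) x)) :=
      ((C.tendsto_frame a b).tendsto_at ⟨ha, hb'⟩).mono_left h𝒰
    refine tendsto_nhds_unique h1 (((h3.pow K).mul h2).congr fun n => ?_)
    exact ((hf n).2 _ _ _ (C.source' n a x ha).2 (C.source' n b x hb').2).symm
  choose A hA using C.cover
  have hF : ∀ i a x, x ∈ L.U i → x ∈ C.V a →
      L.g i (C.i (A x)) x ^ K * G (A x) (C.e (A x) x) = L.g i (C.i a) x ^ K * G a (C.e a x) := by
    intro i a x hi ha
    rw [hcomp (A x) a x (hA x) ha, ← mul_assoc, ← mul_pow,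
      L.cocycle i _ _ x hi (C.source _ x (hA x)).2 (C.source _ x ha).2]
  refine ⟨fun i x => L.g i (C.i (A x)) x ^ K * G (A x) (C.e (A x) x), ⟨?_, ?_⟩, ?_⟩
  · intro i c x hc hi
    set a := A x with ha
    have hxa : x ∈ C.V a := hA x
    have h1 : AnalyticAt ℂ (fun z => L.g i (C.i a) (c.symm z)) (c x) :=
      L.holo i _ c x hc hi (C.source a x hxa).2
    have h2 : AnalyticAt ℂ (G a) (C.e a x) :=
      Vale.Agent.P268.analyticAt_of_differentiableOn (hUo a) (hG1 a) (hUm a x hxa)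
    have h3 : AnalyticAt ℂ (fun z => G a (C.e a (c.symm z))) (c x) := by
      refine analytic_max (f := fun y => G a (C.e a y)) (c := C.e a)
        (IsManifold.subset_maximalAtlas hc.1) (C.chart a) hc.2 (C.source a x hxa).1 ?_
      refine h2.congr ?_
      filter_upwards [(C.e a).open_target.mem_nhds ((C.e a).map_source (C.source a x hxa).1)]
        with z hz
      rw [(C.e a).right_inv hz]
    refine ((h1.pow K).mul h3).congr ?_
    have h4 : ∀ᶠ y in 𝓝 x, y ∈ L.U i ∧ y ∈ C.V a :=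
      Filter.Eventually.and ((L.isOpen i).mem_nhds hi) ((C.isOpen a).mem_nhds hxa)
    have h5 : ∀ᶠ z in 𝓝 (c x), c.symm z ∈ L.U i ∧ c.symm z ∈ C.V a := by
      have h6 := c.continuousAt_symm (c.map_source hc.2)
      rw [ContinuousAt, c.left_inv hc.2] at h6
      exact h6.eventually h4
    filter_upwards [h5] with z hz
    exact (hF i a _ hz.1 hz.2).symm
  · intro i j x hi hj
    have hxa : x ∈ C.V (A x) := hA x
    show L.g i (C.i (A x)) x ^ K * G (A x) (C.e (A x) x) =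
      L.g i j x ^ K * (L.g j (C.i (A x)) x ^ K * G (A x) (C.e (A x) x))
    rw [← mul_assoc, ← mul_pow, L.cocycle i j _ x hi hj (C.source _ x hxa).2]
  · intro a x hx u hu
    have h1 := hconv a x hx u hu
    have h2 : L.g (C.i a) (C.i (A x)) x ^ K * G (A x) (C.e (A x) x) = G a (C.e a x) :=
      (hcomp a (A x) x hx (hA x)).symm
    show Tendsto _ _ (𝓝 (L.g (C.i a) (C.i (A x)) x ^ K * G (A x) (C.e (A x) x)))
    rw [h2]
    exact h1

end Conv

end Vale.Agent.P301.H99
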