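import Vale.Agent.P301.H99.AlgInd3
import Mathlib.Algebra.MvPolynomial.Eval
import Mathlib.RingTheory.MvPolynomial.Homogeneous

/-! # Monomials in two or three sections -/

open scoped Manifold ContDiff ComplexOrder Topology
open Filter Metric Set

set_option linter.all false

noncomputable section

namespace Vale.Agent.P301.H99

open Vale.Agent.P272.K Vale.Agent.P301.H599
open Vale.Agent.P301.H395 (IntSec)
open Vale.Agent.P301.H949 (OnlyL IntClass IsoPow intSec_mul intSec_pow intSec_one intSec_zero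
  exact_of_neg exact_of_ne_zero ne_zero_mul)

/-- the pairs `(a, b)` with `a + b ≤ m` -/
def tri (m : ℕ) : Finset (Σ _ : ℕ, ℕ) := (Finset.range (m + 1)).sigma fun a => Finset.range (m + 1 - a)

lemma mem_tri {m : ℕ} {p : Σ _ : ℕ, ℕ} : p ∈ tri m ↔ p.1 + p.2 ≤ m := by
  simp only [tri, Finset.mem_sigma, Finset.mem_range]
  omega

lemma card_tri (m : ℕ) : (tri m).card = (m + 1) * (m + 2) / 2 := by
  have h1 : ∀ m : ℕ, 2 * ∑ a ∈ Finset.range (m + 1), (m + 1 - a) = (m + 1) * (m + 2) := by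
    intro m
    induction m with
    | zero => simp
    | succ m ih =>
      rw [Finset.sum_range_succ' _ (m + 1)]
      have h2 : ∑ a ∈ Finset.range (m + 1), (m + 1 + 1 - (a + 1)) =
          ∑ a ∈ Finset.range (m + 1), (m + 1 - a) := Finset.sum_congr rfl fun a _ => by omega
      rw [h2, mul_add, ih]
      ring_nf
      omega
  have h3 : (tri m).card = ∑ a ∈ Finset.range (m + 1), (m + 1 - a) := by
    rw [tri, Finset.card_sigma]
    simp
  rw [h3]
  have := h1 m
  omega

variable {d : ℕ} {X : Type} [TopologicalSpace X] [ChartedSpace (Cm d) X]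
  {ι : Type} {L : LineBundle d X ι}

/-- `f 0`, `f 1`, `f 2` are algebraically independent sections of `L`. -/
def AlgIndSec {r : ℕ} (L : LineBundle d X ι) (f : Fin r → ι → X → ℂ) : Prop :=
  ∀ (m : ℕ) (P : MvPolynomial (Fin r) ℂ), P.IsHomogeneous m →
    (∀ i x, x ∈ L.U i → MvPolynomial.eval (fun k => f k i x) P = 0) → P = 0

lemma sec_of_intSec {k : ℕ} {f : ι → X → ℂ} (hf : IntSec L (k : ℤ) f) : Sec L k f :=
  ⟨hf.holo, fun i j x hi hj => by rw [← zpow_natCast]; exact hf.ch i j x hi hj⟩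

lemma intSec_of_sec {k : ℕ} {f : ι → X → ℂ} (hf : Sec L k f) : IntSec L (k : ℤ) f :=
  ⟨hf.1, fun i j x hi hj => by rw [zpow_natCast]; exact hf.2 i j x hi hj⟩

/-- algebraically independent sections give `choose (m + r - 1) m` sections of `L^m`. -/
lemma AlgIndSec.indSec {r : ℕ} {f : Fin r → ι → X → ℂ} (hf : ∀ k, Sec L 1 (f k))
    (h : AlgIndSec L f) (m : ℕ) {n : ℕ} (e : Fin n → (Fin r →₀ ℕ)) (he : Function.Injective e)
    (hm : ∀ a, (e a).degree = m) : ∃ g : Fin n → ι → X → ℂ, (∀ a, Sec L m (g a)) ∧ IndSec L g := by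
  classical
  refine ⟨fun a i x => ∏ k, f k i x ^ e a k, fun a => ⟨fun i c x hc hi => ?_, fun i j x hi hj => ?_⟩,
    fun c hc => ?_⟩
  · exact Finset.analyticAt_fun_prod _ fun k _ => ((hf k).1 i c x hc hi).pow _
  · have h1 : ∀ k, f k i x = L.g i j x * f k j x := fun k => by
      have := (hf k).2 i j x hi hj
      rwa [pow_one] at this
    simp only [h1, mul_pow, Finset.prod_mul_distrib]
    congr 1
    rw [Finset.prod_pow_eq_pow_sum]
    congr 1
    rw [← hm a, Finsupp.degree_eq_sum]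
  · have h1 := h m (∑ a, MvPolynomial.monomial (e a) (c a)) (by
      refine MvPolynomial.IsHomogeneous.sum _ _ _ fun a _ => ?_
      exact MvPolynomial.isHomogeneous_monomial _ (hm a)) (fun i x hx => by
      rw [map_sum]
      rw [← hc i x hx]
      refine Finset.sum_congr rfl fun a _ => ?_
      rw [MvPolynomial.eval_monomial]
      congr 1
      rw [Finsupp.prod_fintype _ _ (fun k => pow_zero _)])
    funext a
    have h2 := congrArg (MvPolynomial.coeff (e a)) h1
    rw [MvPolynomial.coeff_sum, MvPolynomial.coeff_zero, Finset.sum_eq_single a] at h2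
    · simpa using h2
    · intro b _ hb
      rw [MvPolynomial.coeff_monomial, if_neg fun h => hb (he h)]
    · intro h; exact absurd (Finset.mem_univ a) h

/-- the exponent vector -/
def ex3 (m a b : ℕ) : Fin 3 →₀ ℕ := Finsupp.equivFunOnFinite.symm ![a, b, m - a - b]

lemma ex3_inj {m : ℕ} {p q : Σ _ : ℕ, ℕ} (h : ex3 m p.1 p.2 = ex3 m q.1 q.2) : p = q := by
  have h1 := DFunLike.congr_fun h 0
  have h2 := DFunLike.congr_fun h 1
  simp [ex3] at h1 h2
  exact Sigma.ext h1 (heq_of_eq h2)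

lemma ex3_degree {m : ℕ} {p : Σ _ : ℕ, ℕ} (hp : p ∈ tri m) : (ex3 m p.1 p.2).degree = m := by
  rw [mem_tri] at hp
  rw [Finsupp.degree_eq_sum]
  simp [ex3, Fin.sum_univ_three]
  omega

/-- the number of sections of `L^m` -/
theorem AlgIndSec.sections3 {f : Fin 3 → ι → X → ℂ} (hf : ∀ k, Sec L 1 (f k))
    (h : AlgIndSec L f) (m : ℕ) : ∃ g : Fin ((m + 1) * (m + 2) / 2) → ι → X → ℂ,
      (∀ a, Sec L m (g a)) ∧ IndSec L g := by
  classical
  have e : Fin ((m + 1) * (m + 2) / 2) ≃ tri m :=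
    (Fintype.equivFinOfCardEq (by rw [Fintype.card_coe, card_tri])).symm
  exact h.indSec hf m (fun a => ex3 m (e a).1.1 (e a).1.2)
    (fun a b hab => e.injective (Subtype.ext (ex3_inj hab))) fun a => ex3_degree (e a).2

/-- homogeneous polynomials in three variables -/
lemma eval_hom3 {m : ℕ} {P : MvPolynomial (Fin 3) ℂ} (hP : P.IsHomogeneous m) (x : Fin 3 → ℂ) :
    MvPolynomial.eval x P = ∑ a ∈ Finset.range (m + 1), ∑ b ∈ Finset.range (m + 1 - a),
      P.coeff (ex3 m a b) * (x 0 ^ a * x 1 ^ b * x 2 ^ (m - a - b)) := by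
  classical
  have h1 : ∑ a ∈ Finset.range (m + 1), ∑ b ∈ Finset.range (m + 1 - a),
      P.coeff (ex3 m a b) * (x 0 ^ a * x 1 ^ b * x 2 ^ (m - a - b)) =
      ∑ p ∈ tri m, P.coeff (ex3 m p.1 p.2) * (x 0 ^ p.1 * x 1 ^ p.2 * x 2 ^ (m - p.1 - p.2)) := by
    rw [tri, Finset.sum_sigma]
  rw [h1, MvPolynomial.eval_eq']
  have h2 : ∀ v ∈ P.support, ∃ p ∈ tri m, ex3 m p.1 p.2 = v := by
    intro v hv
    have h3 := hP (MvPolynomial.mem_support_iff.1 hv)
    have h4 : v.degree = m := by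
      rw [Finsupp.degree_eq_weight_one]
      exact h3
    rw [Finsupp.degree_eq_sum, Fin.sum_univ_three] at h4
    refine ⟨⟨v 0, v 1⟩, mem_tri.2 (by simp only; omega), ?_⟩
    ext k
    fin_cases k
    · simp [ex3]
    · simp [ex3]
    · simp [ex3]; omega
  have h5 : ∀ p ∈ tri m, P.coeff (ex3 m p.1 p.2) *
      (x 0 ^ p.1 * x 1 ^ p.2 * x 2 ^ (m - p.1 - p.2)) =
      P.coeff (ex3 m p.1 p.2) * ∏ k, x k ^ (ex3 m p.1 p.2) k := by
    intro p _
    rw [Fin.prod_univ_three]
    simp [ex3]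
  rw [Finset.sum_congr rfl h5, ← Finset.sum_image (s := tri m) (g := fun p => ex3 m p.1 p.2)
    (f := fun v => P.coeff v * ∏ k, x k ^ v k) (fun p _ q _ h => ex3_inj h)]
  refine Finset.sum_subset (fun v hv => ?_) fun v _ hv => ?_
  · obtain ⟨p, hp, rfl⟩ := h2 v hv
    exact Finset.mem_image_of_mem _ hp
  · rw [MvPolynomial.notMem_support_iff.1 hv, zero_mul]

variable {ρ : ι → X → ℝ}
variable [IsManifold 𝓘(ℂ, Cm d) ω X] [T2Space X] [CompactSpace X] [SimplyConnectedSpace X]

/-- **Three independent sections of a primitive bundle are algebraically independent.** -/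
theorem algIndSec3 (hρ : IsMetric L ρ) (ho : OnlyL L ρ) (hi : IntClass L ρ)
    (hex : ¬ H450.IsExact (curvature L ρ)) {f : Fin 3 → ι → X → ℂ} (hf : ∀ k, Sec L 1 (f k))
    (hind : IndSec L f) : AlgIndSec L f := by
  intro m P hP h
  have hf' : ∀ k, IntSec L 1 (f k) := fun k => by
    have := intSec_of_sec (hf k)
    rwa [Nat.cast_one] at this
  have key := alg_ind hρ ho hi hex (hf' 0) (hf' 1) (hf' 2) (fun α β γ hαβ => by
    have h1 := hind ![α, β, γ] (fun i x hx => by
      rw [Fin.sum_univ_three]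
      exact hαβ i x hx)
    exact ⟨congrFun h1 0, congrFun h1 1, congrFun h1 2⟩) m (fun a b => P.coeff (ex3 m a b))
    (fun i x hx => by rw [← eval_hom3 hP (fun k => f k i x)]; exact h i x hx)
  ext v
  rw [MvPolynomial.coeff_zero]
  by_contra hv
  have h3 := hP hv
  have h4 : v.degree = m := by
    rw [Finsupp.degree_eq_weight_one]
    exact h3
  rw [Finsupp.degree_eq_sum, Fin.sum_univ_three] at h4
  have h5 : v = ex3 m (v 0) (v 1) := by
    ext k
    fin_cases k
    · simp [ex3]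
    · simp [ex3]
    · simp [ex3]; omega
  apply hv
  rw [h5]
  exact key _ _ (by omega)

/-! ### two sections -/

/-- the exponent vector -/
def ex2 (m b : ℕ) : Fin 2 →₀ ℕ := Finsupp.equivFunOnFinite.symm ![b, m - b]

lemma eval_hom2 {m : ℕ} {P : MvPolynomial (Fin 2) ℂ} (hP : P.IsHomogeneous m) (x : Fin 2 → ℂ) :
    MvPolynomial.eval x P = ∑ b ∈ Finset.range (m + 1),
      P.coeff (ex2 m b) * x 0 ^ b * x 1 ^ (m - b) := by
  classical
  rw [MvPolynomial.eval_eq']
  have h2 : ∀ v ∈ P.support, ∃ b ∈ Finset.range (m + 1), ex2 m b = v := by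
    intro v hv
    have h3 := hP (MvPolynomial.mem_support_iff.1 hv)
    have h4 : v.degree = m := by
      rw [Finsupp.degree_eq_weight_one]
      exact h3
    rw [Finsupp.degree_eq_sum, Fin.sum_univ_two] at h4
    refine ⟨v 0, Finset.mem_range.2 (by omega), ?_⟩
    ext k
    fin_cases k
    · simp [ex2]
    · simp [ex2]; omega
  have h5 : ∀ b ∈ Finset.range (m + 1), P.coeff (ex2 m b) * x 0 ^ b * x 1 ^ (m - b) =
      P.coeff (ex2 m b) * ∏ k, x k ^ (ex2 m b) k := by
    intro b _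
    rw [Fin.prod_univ_two]
    simp [ex2, mul_assoc]
  have hinj : Set.InjOn (fun b => ex2 m b) (Finset.range (m + 1) : Set ℕ) := by
    intro b _ b' _ h
    have := DFunLike.congr_fun h 0
    simpa [ex2] using this
  rw [Finset.sum_congr rfl h5, ← Finset.sum_image (s := Finset.range (m + 1)) (g := fun b => ex2 m b)
    (f := fun v => P.coeff v * ∏ k, x k ^ v k) hinj]
  refine Finset.sum_subset (fun v hv => ?_) fun v _ hv => ?_
  · obtain ⟨b, hb, rfl⟩ := h2 v hv
    exact Finset.mem_image_of_mem _ hb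
  · rw [MvPolynomial.notMem_support_iff.1 hv, zero_mul]

omit [SimplyConnectedSpace X] in
/-- products of nonzero sections -/
lemma prod_ne_zero [ConnectedSpace X] {n : ℕ} {f : Fin n → ι → X → ℂ} (hf : ∀ k, IntSec L 1 (f k))
    (hne : ∀ k, ∃ i x, x ∈ L.U i ∧ f k i x ≠ 0) :
    IntSec L (n : ℤ) (fun i x => ∏ k, f k i x) ∧ ∃ i x, x ∈ L.U i ∧ ∏ k, f k i x ≠ 0 := by
  induction n with
  | zero =>
    refine ⟨by simpa using intSec_one L, ?_⟩
    obtain ⟨x⟩ : Nonempty X := inferInstance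
    obtain ⟨i, hx⟩ := L.cover x
    exact ⟨i, x, hx, by simp⟩
  | succ n ih =>
    obtain ⟨h1, h2⟩ := ih (f := fun k => f k.succ) (fun k => hf _) fun k => hne _
    have h3 := intSec_mul (hf 0) h1
    have h4 := ne_zero_mul (hf 0) (hne 0) h1 h2
    have h5 : (fun (i : ι) (x : X) => ∏ k, f k i x) = fun i x => f 0 i x * ∏ k : Fin n, f k.succ i x := by
      funext i x
      exact Fin.prod_univ_succ _
    rw [h5]
    refine ⟨?_, ?_⟩
    · have h6 : ((n + 1 : ℕ) : ℤ) = 1 + n := by push_cast; ring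
      rw [h6]; exact h3
    · obtain ⟨i, x, hx, h⟩ := h4
      exact ⟨i, x, hx, by rw [Fin.prod_univ_succ]; exact h⟩

omit [SimplyConnectedSpace X] in
/-- **Two independent sections are algebraically independent.** -/
theorem algIndSec2 [ConnectedSpace X] {f : Fin 2 → ι → X → ℂ} (hf : ∀ k, Sec L 1 (f k))
    (hind : IndSec L f) : AlgIndSec L f := by
  intro m P hP h
  by_contra hP0
  have hf' : ∀ k, IntSec L 1 (f k) := fun k => by
    have := intSec_of_sec (hf k)
    rwa [Nat.cast_one] at this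
  obtain ⟨v, hv⟩ := MvPolynomial.ne_zero_iff.1 hP0
  have h3 := hP hv
  have h4 : v.degree = m := by
    rw [Finsupp.degree_eq_weight_one]
    exact h3
  rw [Finsupp.degree_eq_sum, Fin.sum_univ_two] at h4
  have h5 : v = ex2 m (v 0) := by
    ext k
    fin_cases k
    · simp [ex2]
    · simp [ex2]; omega
  rw [h5] at hv
  obtain ⟨a, p, ha, hp, hap⟩ := binary_form (m := m) (c := fun b => P.coeff (ex2 m b))
    ⟨v 0, by omega, hv⟩
  have hl : ∀ k, IntSec L 1 fun i x => (p k).1 * f 0 i x + (p k).2 * f 1 i x := by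
    intro k
    have h1 := intSec_comb (L := L) (k := 1) (Finset.univ : Finset (Fin 2)) (f := f)
      (fun a _ => hf' a) ![(p k).1, (p k).2]
    simpa [Fin.sum_univ_two] using h1
  have hln : ∀ k, ∃ i x, x ∈ L.U i ∧ (p k).1 * f 0 i x + (p k).2 * f 1 i x ≠ 0 := by
    intro k
    by_contra hcon
    push Not at hcon
    have h1 := hind ![(p k).1, (p k).2] (fun i x hx => by
      rw [Fin.sum_univ_two]; exact hcon i x hx)
    exact hp k (Prod.ext (congrFun h1 0) (congrFun h1 1))
  obtain ⟨-, i, x, hx, h6⟩ := prod_ne_zero hl hln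
  have h7 := h i x hx
  rw [eval_hom2 hP, hap] at h7
  exact mul_ne_zero ha h6 h7

omit [SimplyConnectedSpace X] [IsManifold 𝓘(ℂ, Cm d) ω X] [T2Space X] [CompactSpace X] in
/-- the number of sections of `L^m` -/
theorem AlgIndSec.sections2 {f : Fin 2 → ι → X → ℂ} (hf : ∀ k, Sec L 1 (f k))
    (h : AlgIndSec L f) (m : ℕ) : ∃ g : Fin (m + 1) → ι → X → ℂ,
      (∀ a, Sec L m (g a)) ∧ IndSec L g := by
  refine h.indSec hf m (fun a => ex2 m a) (fun a b hab => ?_) fun a => ?_
  · have := DFunLike.congr_fun hab 0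
    simp [ex2] at this
    exact Fin.ext this
  · rw [Finsupp.degree_eq_sum, Fin.sum_univ_two]
    simp [ex2]
    omega

end Vale.Agent.P301.H99
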