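import Vale.Agent.P301.H599.NSL
import Vale.Agent.P301.H949.CInd
import Vale.Agent.P301.H949.Core6

/-! # Pairs of Picard rank two: classes of effective divisors -/

open scoped Manifold ContDiff ComplexOrder Topology Matrix
open Filter Metric Set

set_option linter.all false

noncomputable section

namespace Vale.Agent.P301.H99

open Vale.Agent.P272.K Vale.Agent.P301.H599
open Vale.Agent.P301.H949 (OnlyL IntClass IsoPow NSLProp tw isMetric_tw exact_of_ne_zero
  isSec_form0 powZ)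
open Vale.Agent.P301.H395 (IntSec)
open Vale.Agent.P272.K.C2 Vale.Agent.P299.IX Vale.Agent.P299.IX.Fock
open Vale.Agent.P301.H724 (at_chartAt HasSec)

section nomfd

variable {d : ℕ} {X : Type} [TopologicalSpace X] [ChartedSpace (Cm d) X]
  [IsManifold 𝓘(ℂ, Cm d) ω X] [T2Space X] [CompactSpace X]
  {ι κ : Type} {L : LineBundle d X ι} {V : LineBundle d X κ} {ρ : ι → X → ℝ} {ρV : κ → X → ℝ}

/-- isomorphic powers have the same class -/
theorem sameClass_of_isoPow [ConnectedSpace X] (hρ : IsMetric L ρ) (hV : IsMetric V ρV) {k : ℕ}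
    (h : IsoPow V 1 L (k : ℤ)) :
    SameClass (curvature V ρV) (fun e z => ((k : ℝ) : ℂ) • curvature L ρ e z) := by
  obtain ⟨h, hh, hch⟩ := h
  have hm := isMetric_tw hρ hV 1 (k : ℤ) (v := fun _ => (0 : ℝ)) (Smooth.const 0)
  have hs : IntSec (tw V 1 L (k : ℤ)) 1 (fun p x => h p.1 p.2 x) :=
    { holo := fun p e x he hp => (hh p.1 p.2 x hp.1 hp.2).1 e he
      ch := fun p q x hp hq => by
        rw [zpow_one]
        exact hch p.1 q.1 p.2 q.2 x hp.1 hq.1 hp.2 hq.2 }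
  obtain ⟨u, hu, hue⟩ := exact_of_ne_zero hm hs fun p x hp => (hh p.1 p.2 x hp.1 hp.2).2
  refine ⟨u, hu, fun e x he => ?_⟩
  obtain ⟨p, hp⟩ := (tw V 1 L (k : ℤ)).cover x
  have h1 := hue e x he
  rw [curvature_eq hm he hp] at h1
  show curvature V ρV e (e x) = ((k : ℝ) : ℂ) • curvature L ρ e (e x) + ddc u e (e x)
  rw [curvature_eq hV he hp.1, curvature_eq hρ he hp.2, ← h1]
  have h2 := H949.ddc_of_contDiff (hV.smooth p.1 e x he hp.1) (hρ.smooth p.2 e x he hp.2) 1 (k : ℝ)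
  have h3 : ddc (fun y => ((1 : ℕ) : ℝ) * ρV p.1 y - ((k : ℤ) : ℝ) * ρ p.2 y - 0) e (e x) =
      cHess (fun y => (1 : ℝ) * ρV p.1 (e.symm y) - (k : ℝ) * ρ p.2 (e.symm y)) (e x) := by
    show cHess (fun y => ((1 : ℕ) : ℝ) * ρV p.1 (e.symm y) - ((k : ℤ) : ℝ) * ρ p.2 (e.symm y) - 0)
      (e x) = _
    congr 1
    funext y
    push_cast
    ring
  have h4 : ddc (fun y => ((1 : ℕ) : ℝ) * ρV p.1 y - ((k : ℤ) : ℝ) * ρ p.2 y - 0) e (e x) =
      ((1 : ℝ) : ℂ) • ddc (ρV p.1) e (e x) - ((k : ℝ) : ℂ) • ddc (ρ p.2) e (e x) := h3.trans h2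
  rw [h4]
  simp

/-- if all line bundles with sections are powers of `L`, the classes of effective divisors are
multiples of the class of `L` -/
theorem onlyL_of_nslProp [ConnectedSpace X] (hρ : IsMetric L ρ) (h : NSLProp L) : OnlyL L ρ := by
  intro κ V ρV hV ⟨f, hf, hch, i, x, hx, hne⟩
  have hfs : IntSec V 1 f :=
    { holo := hf
      ch := fun i j x hi hj => by rw [zpow_one, ← pow_one (V.g i j x)]; exact hch i j x hi hj }
  have hsec := isSec_form0 hfs
  have hx' := at_chartAt (d := d) x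
  obtain ⟨k, h', hh, hch'⟩ := h κ (powZ V 1) 0 _ hsec (fun i e x hx hi I hI => by
      have : I ≠ ∅ := fun h => hI (by rw [h, Finset.card_empty])
      show f i (e.symm (e x)) * (ev ∅ : Finset (Fin d) → ℂ) I = 0
      rw [ev, Pi.single_eq_of_ne this, mul_zero])
    ⟨x, hsec.nz hx' (i := i) hx fun h1 => by
      have h2 := congrFun h1 ∅
      have h3 : f i ((chartAt (Cm d) x).symm (chartAt (Cm d) x x)) *
        (ev ∅ : Finset (Fin d) → ℂ) ∅ = 0 := h2
      rw [hx'.left_inv, ev, Pi.single_eq_same, mul_one] at h3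
      exact hne h3⟩
  refine ⟨(k : ℝ), sameClass_of_isoPow hρ hV ⟨h', hh, fun a b i j x ha hb hi hj => ?_⟩⟩
  rw [hch' a b i j x ha hb hi hj]
  show (V.g a b x ^ (1 : ℤ)) ^ 1 * _ * _ = _
  rw [zpow_one]

omit [IsManifold 𝓘(ℂ, Cm d) ω X] [T2Space X] [CompactSpace X] in
theorem NS.intClass (h : NS L ρ V ρV) : IntClass L ρ := h.int

end nomfd

end Vale.Agent.P301.H99
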