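import Vale.Agent.P301.H599.Stmt

/-! # Pairs (irreducible holomorphic symplectic manifold, line bundle): definitions -/

open scoped Manifold ContDiff ComplexOrder Topology

noncomputable section

namespace Vale.Agent.P301.H99

open Vale.Agent.P272.K Vale.Agent.P301.H599

variable {d : ℕ} {X : Type} [TopologicalSpace X] [ChartedSpace (Cm d) X] {ι : Type}

/-- `X` has a parabolic automorphism `F` which preserves `L`: `F^* c₁(L) = c₁(L)` and
`(F^* - 1)² [w] = c [curvature of L]` with `c > 0`; here `w` is a Kähler metric of `X` and `ρ` a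
smooth metric of `L`. -/
def Parabolic (w : Chart d X → Cm d → Matrix (Fin d) (Fin d) ℂ) (L : LineBundle d X ι)
    (ρ : ι → X → ℝ) : Prop :=
  ∃ (F : Auto d X) (c : ℝ), 0 < c ∧ SameClass (pull F (curvature L ρ)) (curvature L ρ) ∧
    SameClass (fun e z => pull F (pull F w) e z - (2 : ℂ) • pull F w e z + w e z)
      (fun e z => (c : ℂ) • curvature L ρ e z)

/-- The line bundle `L` with the smooth metric `ρ` of curvature `θ` is nef (for every `ε > 0` there
is a smooth function `u` with `θ + ε w + i∂∂̄u ≥ 0`), `∫ θ^d = 0`, and `c₁(L)` contains a closed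
positive current all of whose Lelong numbers are zero (the curvature current of a singular metric
with plurisubharmonic weights `ψ`). -/
def ZeroLelong (w : Chart d X → Cm d → Matrix (Fin d) (Fin d) ℂ) (L : LineBundle d X ι)
    (ρ : ι → X → ℝ) : Prop :=
  (∀ ε : ℝ, 0 < ε → ∃ u : X → ℝ, Smooth (d := d) u ∧ ∀ e x, At e x →
    (curvature L ρ e (e x) + (ε : ℂ) • w e (e x) + ddc u e (e x)).PosSemidef) ∧
  IsIntegral (fun (e : Chart d X) z => (curvature L ρ e z).det.re) 0 ∧
  ∃ ψ : ι → X → EReal, IsPshMetric L ψ ∧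
    ∀ i (e : Chart d X) x, At e x → x ∈ L.U i → lelong (fun z => ψ i (e.symm z)) (e x) = 0

/-- Every line bundle `V` on `X` with a nonzero holomorphic section has class
`c₁(V) = t c₁(L)` for some real number `t`: the classes of the effective divisors of `X` are
multiples of `c₁(L)`. -/
def OnlyMultiples (L : LineBundle d X ι) (ρ : ι → X → ℝ) : Prop :=
  ∀ (κ : Type) (V : LineBundle d X κ) (ρV : κ → X → ℝ), IsMetric V ρV →
    (∃ f : κ → X → ℂ,
      (∀ i (e : Chart d X) x, At e x → x ∈ V.U i →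
        AnalyticAt ℂ (fun z => f i (e.symm z)) (e x)) ∧
      (∀ i j x, x ∈ V.U i → x ∈ V.U j → f i x = V.g i j x ^ 1 * f j x) ∧
      ∃ i x, x ∈ V.U i ∧ f i x ≠ 0) →
    ∃ t : ℝ, SameClass (curvature V ρV) (fun e z => (t : ℂ) • curvature L ρ e z)

/-- `X` has a Kähler metric `w` and a holomorphic symplectic form `s` with `H⁰(X, Ω²) = ℂ s`, and
the line bundle `L` on `X` is preserved by a parabolic automorphism, or nef with `c₁(L)^d = 0` and
with a closed positive current with zero Lelong numbers in `c₁(L)`. -/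
def IsPair (L : LineBundle d X ι) : Prop :=
  ∃ (w s : Chart d X → Cm d → Matrix (Fin d) (Fin d) ℂ) (ρ : ι → X → ℝ),
    IsSymplectic d X w s ∧ IsMetric L ρ ∧ (Parabolic w L ρ ∨ ZeroLelong w L ρ)

/-- `L` is as in `IsPair`, and `c₁(L) ≠ 0` in `H²(X, ℝ)`. -/
def IsPairNZ (L : LineBundle d X ι) : Prop :=
  ∃ (w s : Chart d X → Cm d → Matrix (Fin d) (Fin d) ℂ) (ρ : ι → X → ℝ),
    IsSymplectic d X w s ∧ IsMetric L ρ ∧ (Parabolic w L ρ ∨ ZeroLelong w L ρ) ∧
    ¬ SameClass (curvature L ρ) (fun _ _ => 0)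

/-- `L` is as in `IsPair`, `c₁(L) ≠ 0`, and the classes of the effective divisors of `X` are
multiples of `c₁(L)`. -/
def IsPairOnly (L : LineBundle d X ι) : Prop :=
  ∃ (w s : Chart d X → Cm d → Matrix (Fin d) (Fin d) ℂ) (ρ : ι → X → ℝ),
    IsSymplectic d X w s ∧ IsMetric L ρ ∧ (Parabolic w L ρ ∨ ZeroLelong w L ρ) ∧
    ¬ SameClass (curvature L ρ) (fun _ _ => 0) ∧ OnlyMultiples L ρ

/-- The sections `f` and `g` of a power of `L` have no common factor at any point (if `f = h a` and
`g = h b` near `x` with `h` holomorphic, then `h` is not zero at `x`): their divisors have no common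
component. -/
def NoCommonDivisor (L : LineBundle d X ι) (f g : ι → X → ℂ) : Prop :=
  ∀ i (e : Chart d X) x, At e x → x ∈ L.U i → ∀ h a b : Cm d → ℂ, AnalyticAt ℂ h (e x) →
    (∀ᶠ z in 𝓝 (e x), f i (e.symm z) = h z * a z ∧ g i (e.symm z) = h z * b z) → h (e x) ≠ 0

end Vale.Agent.P301.H99
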