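import Vale.Agent.P301.H949.Core6

/-! # The greatest common divisor of two sections -/

open scoped Manifold ContDiff ComplexOrder Topology
open Filter Metric Set

set_option linter.all false

noncomputable section

namespace Vale.Agent.P301.H99

open Vale.Agent.P272.K Vale.Agent.P301.H599
open Vale.Agent.P301.H395 (IntSec)
open Vale.Agent.P301.H949 (OnlyL IntClass IsoPow)
open Vale.Agent.P301.H508 (Prim PrimX AnX moving factor_unique ev_chart ev_of_chart an_comp)
open Vale.Agent.P301.H724 (at_chartAt)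

section nomfd

variable {d : ℕ} {X : Type} [TopologicalSpace X] [ChartedSpace (Cm d) X] {ι : Type}
  {L : LineBundle d X ι}

lemma IntSec.unit {f : ι → X → ℂ} (hf : IntSec L 1 f) :
    H724.IsSec L (fun _ _ _ => (1 : Matrix Unit Unit ℂ)) 1 (fun i e z (_ : Unit) => f i (e.symm z)) where
  holo i e x hx hi _ := hf.holo i e x hx hi
  chL i j e x hx hi hj := by
    funext a
    simp only [Pi.smul_apply, smul_eq_mul, e.left_inv hx.2, pow_one]
    have := hf.ch i j x hi hj
    rwa [zpow_one] at this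
  chV i e e' x hx hx' hi := by
    rw [Matrix.one_mulVec]
    funext a
    simp only [e.left_inv hx.2, e'.left_inv hx'.2]

lemma IntSec.anX {k : ℤ} {f : ι → X → ℂ} (hf : IntSec L k f) {i : ι} {x : X} (hi : x ∈ L.U i) :
    AnX (d := d) (f i) x := fun e he => hf.holo i e x he hi

end nomfd

variable {d : ℕ} {X : Type} [TopologicalSpace X] [ChartedSpace (Cm d) X]
  [IsManifold 𝓘(ℂ, Cm d) ω X] [T2Space X] [CompactSpace X] [SimplyConnectedSpace X]
  {ι : Type} {L : LineBundle d X ι} {ρ : ι → X → ℝ}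

/-- **The greatest common divisor of two sections.** -/
theorem sat2 (hρ : IsMetric L ρ) (ho : OnlyL L ρ) (hi : IntClass L ρ) {f : Fin 2 → ι → X → ℂ}
    (hf : ∀ k, IntSec L 1 (f k)) (hne : ∃ k i x, x ∈ L.U i ∧ f k i x ≠ 0) :
    ∃ (j : ℤ) (T : Fin 2 → ι → X → ℂ) (R : ι → X → ℂ), (∀ k, IntSec L j (T k)) ∧
      IntSec L (1 - j) R ∧ (∀ i x, x ∈ L.U i → PrimX (d := d) (fun y k => T k i y) x) ∧
      ∀ k i x, x ∈ L.U i → f k i x = R i x * T k i x := by
  classical
  set σ : Fin 2 → ι → Chart d X → Cm d → Unit → ℂ := fun k i e z _ => f k i (e.symm z) with hσd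
  have hσ : ∀ k, H724.IsSec L (fun _ _ _ => (1 : Matrix Unit Unit ℂ)) 1 (σ k) :=
    fun k => IntSec.unit (hf k)
  have hσn : ∃ k x, H724.Nz L (σ k) x := by
    obtain ⟨k, i, x, hi', hx⟩ := hne
    refine ⟨k, x, (hσ k).nz (at_chartAt x) hi' fun h0 => hx ?_⟩
    have h1 := congrFun h0 ()
    simp only [hσd, Pi.zero_apply] at h1
    rwa [(chartAt (Cm d) x).left_inv (mem_chart_source _ _)] at h1
  obtain ⟨i0, W, t, hW1, hW2, hW3, hW4, hW5⟩ := moving L (fun _ => 1) σ hσ
    (fun k l i e x he hi' c c' => rfl) hσn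
  -- the line bundle of `t`
  let V : LineBundle d X X :=
    { U := W.U
      isOpen := W.isOpen
      cover := W.cover
      g := fun x y z => W.g x y z * L.g (i0 x) (i0 y) z
      holo := fun x y e z he hx hy => (W.holo x y e z he hx hy).mul
        (L.holo _ _ e z he (hW2 x hx) (hW2 y hy))
      ne_zero := fun x y z hx hy => mul_ne_zero (W.ne_zero x y z hx hy)
        (L.ne_zero _ _ z (hW2 x hx) (hW2 y hy))
      cocycle := fun x y v z hx hy hv => by
        rw [← W.cocycle x y v z hx hy hv, ← L.cocycle _ _ _ z (hW2 x hx) (hW2 y hy) (hW2 v hv)]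
        ring }
  have htV : ∀ x y z, z ∈ W.U x → z ∈ W.U y → ∀ k, t x z k = V.g x y z * t y z k := by
    intro x y z hx hy k
    have := hW4 x y z hx hy k
    simpa only [pow_one] using this
  obtain ⟨ρV, hρV⟩ := H450.exists_metric V
  have hVsec : H724.HasSec V 1 := by
    obtain ⟨x⟩ : Nonempty X := inferInstance
    have h1 := (hW3 x x (hW1 x) _ (at_chartAt x)).ne
    obtain ⟨k, hk⟩ := H508.ne_iff.1 h1
    refine ⟨fun y z => t y z k, fun y e z he hy => an_comp (hW3 y z hy e he).an k,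
      fun y y' z hy hy' => by rw [pow_one]; exact htV y y' z hy hy' k, ?_⟩
    rw [Filter.not_eventually] at hk
    have h2 : ∀ᶠ z in 𝓝 (chartAt (Cm d) x x), (chartAt (Cm d) x).symm z ∈ W.U x :=
      ev_chart (p := fun y => y ∈ W.U x) (at_chartAt x) ((W.isOpen x).mem_nhds (hW1 x))
    obtain ⟨z, hz1, hz2⟩ := (hk.and_eventually h2).exists
    exact ⟨x, _, hz2, hz1⟩
  obtain ⟨α, hα⟩ := ho X V ρV hρV hVsec
  obtain ⟨j, hj⟩ := hi X V ρV hρV α hα
  have hiso : IsoPow V 1 L j := by
    refine H949.isoPow_of_curvature hρ hρV ?_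
    obtain ⟨u, hu, hue⟩ := hα
    refine ⟨u, hu, fun e x hx => ?_⟩
    have h1 := hue e x hx
    rw [← hj] at h1
    simp only [Nat.cast_one, one_smul]
    rw [h1]
    push_cast
    rfl
  obtain ⟨h, hh1, hh2⟩ := hiso
  have hhV : ∀ {x y : X} {i : ι} {z : X}, z ∈ W.U x → z ∈ W.U y → z ∈ L.U i →
      h x i z = V.g x y z * h y i z := by
    intro x y i z hx hy hi'
    have h1 := hh2 x y i i z hx hy hi' hi'
    rw [H395.g_one L hi'] at h1
    simpa using h1
  have hhL : ∀ {x : X} {i i' : ι} {z : X}, z ∈ W.U x → z ∈ L.U i → z ∈ L.U i' →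
      h x i z = (L.g i i' z ^ j)⁻¹ * h x i' z := by
    intro x i i' z hx hi' hi''
    have h1 := hh2 x x i i' z hx hx hi' hi''
    rw [H395.g_one V (show z ∈ V.U x from hx)] at h1
    simpa using h1
  have hhne : ∀ {x : X} {i : ι} {z : X}, z ∈ W.U x → z ∈ L.U i → h x i z ≠ 0 :=
    fun hx hi' => (hh1 _ _ _ hx hi').2
  have hhan : ∀ {x : X} {i : ι} {z : X}, z ∈ W.U x → z ∈ L.U i → AnX (d := d) (h x i) z :=
    fun hx hi' => (hh1 _ _ _ hx hi').1
  set T : Fin 2 → ι → X → ℂ := fun k i z => (h z i z)⁻¹ * t z z k with hT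
  have hTx : ∀ {x : X} {k : Fin 2} {i : ι} {z : X}, z ∈ W.U x → z ∈ L.U i →
      T k i z = (h x i z)⁻¹ * t x z k := by
    intro x k i z hx hi'
    have h1 := hhV (hW1 z) hx hi'
    have h2 := htV z x z (hW1 z) hx k
    have h3 : V.g z x z ≠ 0 := V.ne_zero _ _ _ (hW1 z) hx
    have h4 := hhne hx hi'
    simp only [hT]
    rw [h1, h2]
    field_simp
  have hev : ∀ {x : X} {i : ι}, x ∈ L.U i → ∀ᶠ y in 𝓝 x, y ∈ W.U x ∧ y ∈ L.U i := by
    intro x i hi'
    filter_upwards [(W.isOpen x).mem_nhds (hW1 x), (L.isOpen i).mem_nhds hi'] with y h1 h2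
      using ⟨h1, h2⟩
  have hTprim : ∀ i x, x ∈ L.U i → PrimX (d := d) (fun y k => T k i y) x := by
    intro i x hi' e he
    have h1 := hW3 x x (hW1 x) e he
    have h2 : AnalyticAt ℂ (fun z => h x i (e.symm z)) (e x) := hhan (hW1 x) hi' e he
    have h3 : h x i (e.symm (e x)) ≠ 0 := by rw [e.left_inv he.2]; exact hhne (hW1 x) hi'
    have h4 := H395.prim_twist (A := fun _ => 1) (B := fun _ => 1) h1 (h2.inv h3)
      (inv_ne_zero h3) (fun k l => analyticAt_const) (fun k l => analyticAt_const)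
      (Eventually.of_forall fun z => ⟨by simp, by simp⟩)
    refine H395.prim_congr h4 ?_
    filter_upwards [ev_chart (p := fun y => y ∈ W.U x ∧ y ∈ L.U i) he (hev hi')] with z hz
    funext k
    rw [Matrix.one_mulVec, hTx hz.1 hz.2]
    rfl
  have hTsec : ∀ k, IntSec L j (T k) := by
    intro k
    refine ⟨fun i e x he hi' => an_comp (hTprim i x hi' e he).an k, fun i i' x hi' hi'' => ?_⟩
    have h1 := hhL (hW1 x) hi' hi''
    have h2 := hhne (hW1 x) hi''
    have h3 : L.g i i' x ^ j ≠ 0 := zpow_ne_zero _ (L.ne_zero _ _ _ hi' hi'')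
    simp only [hT]
    rw [h1]
    field_simp
  -- the factor
  have hpar : ∀ {i x}, x ∈ L.U i → ∀ k l, T l i x * f k i x = T k i x * f l i x := by
    intro i x hi' k l
    have he := at_chartAt (d := d) x
    have h1 := hW5 x _ x he (hW1 x) k l ()
    have h2 : ∀ k, σ k (i0 x) (chartAt (Cm d) x) (chartAt (Cm d) x x) () = f k (i0 x) x := by
      intro k
      simp only [hσd]
      rw [(chartAt (Cm d) x).left_inv (mem_chart_source _ _)]
    rw [h2, h2] at h1
    have h3 := (hf k).ch i (i0 x) x hi' (hW2 x (hW1 x))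
    have h4 := (hf l).ch i (i0 x) x hi' (hW2 x (hW1 x))
    rw [h3, h4]
    simp only [hT]
    linear_combination ((h x i x)⁻¹ * L.g i (i0 x) x ^ (1 : ℤ)) * h1
  have hr : ∀ i x, x ∈ L.U i → ∃ r : X → ℂ, AnX (d := d) r x ∧
      ∀ᶠ y in 𝓝 x, ∀ k, f k i y = r y * T k i y := by
    intro i x hi'
    have he := at_chartAt (d := d) x
    obtain ⟨r, hra, hre⟩ := (hTprim i x hi' _ he).dvd
      (fun z k => f k i ((chartAt (Cm d) x).symm z))
      (analyticAt_pi_iff.2 fun k => (hf k).holo i _ x he hi') (by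
        filter_upwards [ev_chart (p := fun y => y ∈ W.U x ∧ y ∈ L.U i) he (hev hi')]
          with z hz k l
        have := hpar hz.2 k l
        linear_combination this)
    refine ⟨fun y => r (chartAt (Cm d) x y), AnX.of_chart he (hra.congr ?_), ?_⟩
    · filter_upwards [(chartAt (Cm d) x).open_target.mem_nhds
        ((chartAt (Cm d) x).map_source he.2)] with z hz
      rw [(chartAt (Cm d) x).right_inv hz]
    · refine ev_of_chart he ?_
      filter_upwards [hre, (chartAt (Cm d) x).open_target.mem_nhds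
        ((chartAt (Cm d) x).map_source he.2)] with z hz hz' k
      rw [(chartAt (Cm d) x).right_inv hz']
      exact congrFun hz k
  choose! r hra hre using hr
  set R : ι → X → ℂ := fun i x => r i x x with hR
  have hTdata : ∀ i x, x ∈ L.U i → ∃ e : Chart d X, At e x ∧
      AnalyticAt ℂ (fun z => (fun y k => T k i y : X → Fin 2 → ℂ) (e.symm z)) (e x) ∧
      ¬ ∀ᶠ z in 𝓝 (e x), (fun y k => T k i y : X → Fin 2 → ℂ) (e.symm z) = 0 :=
    fun i x hi' => (hTprim i x hi').data
  have hRr : ∀ i x, x ∈ L.U i → ∀ᶠ y in 𝓝 x, R i y = r i x y := by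
    intro i x hi'
    filter_upwards [(hre i x hi').eventually_nhds, (L.isOpen i).mem_nhds hi',
      (hra i x hi').eventually] with y hy1 hy2 hy3
    have h1 := factor_unique (hTdata i y hy2) (hra i y hy2) hy3 (by
      filter_upwards [hre i y hy2, hy1] with z hz1 hz2 k
      rw [← hz1 k, ← hz2 k])
    exact h1.self_of_nhds
  have hRan : ∀ i x, x ∈ L.U i → AnX (d := d) (R i) x := by
    intro i x hi' e he
    refine (hra i x hi' e he).congr ?_
    filter_upwards [ev_chart (p := fun y => R i y = r i x y) he (hRr i x hi')] with z hz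
    exact hz.symm
  have hRf : ∀ k i x, x ∈ L.U i → f k i x = R i x * T k i x :=
    fun k i x hi' => (hre i x hi').self_of_nhds k
  refine ⟨j, T, R, hTsec, ⟨fun i e x he hi' => hRan i x hi' e he, fun i i' x hi' hi'' => ?_⟩,
    hTprim, hRf⟩
  have hgan : AnX (d := d) (L.g i i') x := fun e he => L.holo i i' e x he hi' hi''
  have h1 := factor_unique (hTdata i x hi') (hRan i x hi')
    (h' := fun y => L.g i i' y ^ (1 - j) * R i' y) (fun e he => by
      refine AnalyticAt.mul ((hgan e he).zpow ?_) (hRan i' x hi'' e he)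
      rw [e.left_inv he.2]
      exact L.ne_zero _ _ _ hi' hi'') (by
      filter_upwards [(L.isOpen i).mem_nhds hi', (L.isOpen i').mem_nhds hi''] with y h2 h3 k
      have h4 := L.ne_zero i i' y h2 h3
      rw [← hRf k i y h2, (hf k).ch i i' y h2 h3, (hTsec k).ch i i' y h2 h3, hRf k i' y h3,
        zpow_one, zpow_sub₀ h4, zpow_one]
      have h5 : L.g i i' y ^ j ≠ 0 := zpow_ne_zero _ h4
      field_simp)
  exact h1.self_of_nhds

end Vale.Agent.P301.H99
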