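import Vale.Agent.P301.H949.T12Fin
import Vale.Agent.P301.H99.OnlyNS
import Vale.Agent.P301.H99.MonoInd
import Vale.Agent.P301.H99.Pair

/-! # Sections of `L` for the pairs of `PairV.lean` in dimension four and six -/

open scoped Manifold ContDiff ComplexOrder Topology
open Filter

set_option linter.all false

noncomputable section

namespace Vale.Agent.P301.H99

open Vale.Agent.P272.K Vale.Agent.P301.H599
open Vale.Agent.P301.H949 (OnlyL IntClass exists_parV)
open Vale.Agent.P301.H395 (IntSec)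
open Vale.Agent.P301.H508 (Prim PrimX)

section gen

variable {d : ℕ} {X : Type} [TopologicalSpace X] [ChartedSpace (Cm d) X]
  [IsManifold 𝓘(ℂ, Cm d) ω X] [T2Space X] [CompactSpace X] [SimplyConnectedSpace X]
  {ι : Type} {L : LineBundle d X ι}

/-- the classes of the effective divisors for a pair of Picard rank two -/
theorem IsPairV.data (h : IsPairV L) : ∃ ρ : ι → X → ℝ, IsMetric L ρ ∧ OnlyL L ρ ∧
    IntClass L ρ ∧ ¬ H450.IsExact (curvature L ρ) := by
  obtain ⟨w, s, ρ, F, c, κ, V, ρV, a, h⟩ := exists_parV h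
  exact ⟨ρ, h.met, onlyL_of_nslProp h.met h.nsl, h.ns.intClass, h.ne⟩

omit [IsManifold 𝓘(ℂ, Cm d) ω X] [T2Space X] [CompactSpace X] [SimplyConnectedSpace X] in
theorem noCommonDivisor_of_primX {f : Fin 2 → ι → X → ℂ}
    (h : ∀ i x, x ∈ L.U i → PrimX (d := d) (fun y k => f k i y) x) :
    NoCommonDivisor L (f 0) (f 1) := by
  intro i e x he hx q a b hq hab
  refine H450.no_common (h i x hx e he) one_pos hq (f := a) (g := b) ?_
  filter_upwards [hab] with z hz
  rw [pow_one, pow_one]
  exact hz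

/-- independent sections of `L`: any two of them have no common divisor -/
theorem IsPairV.coprime (h : IsPairV L) {r : ℕ} {f : Fin r → ι → X → ℂ}
    (hf : ∀ k, IntSec L 1 (f k)) (hind : IndSec L f) {j k : Fin r} (hjk : j ≠ k) :
    NoCommonDivisor L (f j) (f k) := by
  classical
  obtain ⟨ρ, hρ, ho, hi, hex⟩ := h.data
  have h1 : ∀ α β : ℂ, (∀ i x, x ∈ L.U i → α * f j i x + β * f k i x = 0) → α = 0 ∧ β = 0 := by
    intro α β hαβ
    have h2 := hind (fun l => if l = j then α else if l = k then β else 0) (fun i x hx => by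
      have h5 : ∑ l, (if l = j then α else if l = k then β else 0) * f l i x =
          α * f j i x + β * f k i x := by
        rw [← Finset.sum_subset (Finset.subset_univ {j, k})]
        · rw [Finset.sum_pair hjk, if_pos rfl, if_neg hjk.symm, if_pos rfl]
        · intro l _ hl
          simp only [Finset.mem_insert, Finset.mem_singleton, not_or] at hl
          rw [if_neg hl.1, if_neg hl.2, zero_mul]
      rw [h5]
      exact hαβ i x hx)
    have h3 := congrFun h2 j
    have h4 := congrFun h2 k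
    simp only [if_neg hjk.symm, if_true, Pi.zero_apply] at h3 h4
    exact ⟨h3, h4⟩
  exact noCommonDivisor_of_primX (f := ![f j, f k]) fun i x hx =>
    prim_pair hρ ho hi hex (f := ![f j, f k]) (fun l => by fin_cases l; exacts [hf j, hf k])
      h1 i x hx

end gen

/-- The sections of `L` for `n = 2, 3`. -/
theorem IsPairV.sections {n : ℕ} (hn : n = 2 ∨ n = 3) {X : Type} [TopologicalSpace X]
    [ChartedSpace (Cm (2 * n)) X] [IsManifold 𝓘(ℂ, Cm (2 * n)) ω X] [T2Space X] [CompactSpace X]
    [SimplyConnectedSpace X] {ι : Type} {L : LineBundle (2 * n) X ι} (h : IsPairV L) :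
    ∃ f : Fin n → ι → X → ℂ, (∀ k, Sec L 1 (f k)) ∧ AlgIndSec L f ∧
      ∀ j k, j ≠ k → NoCommonDivisor L (f j) (f k) := by
  obtain ⟨ρ, hρ, ho, hi, hex⟩ := h.data
  rcases hn with rfl | rfl
  · obtain ⟨f, hf, hind⟩ := H949.two_sections_four (X := X) (L := L) h
    have hf' : ∀ k, Sec L 1 (f k) := fun k => sec_of_intSec (k := 1) (by
      rw [Nat.cast_one]; exact hf k)
    exact ⟨f, hf', algIndSec2 hf' hind, fun j k hjk => h.coprime hf hind hjk⟩
  · obtain ⟨f, hf, hind⟩ := H949.three_sections_six (X := X) (L := L) h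
    have hf' : ∀ k, Sec L 1 (f k) := fun k => sec_of_intSec (k := 1) (by
      rw [Nat.cast_one]; exact hf k)
    exact ⟨f, hf', algIndSec3 hρ ho hi hex hf' hind, fun j k hjk => h.coprime hf hind hjk⟩

/-- `h⁰(L^m) ≥ binom(m + n - 1, n - 1)` for `n = 2, 3`. -/
theorem IsPairV.growth {n : ℕ} (hn : n = 2 ∨ n = 3) {X : Type} [TopologicalSpace X]
    [ChartedSpace (Cm (2 * n)) X] [IsManifold 𝓘(ℂ, Cm (2 * n)) ω X] [T2Space X] [CompactSpace X]
    [SimplyConnectedSpace X] {ι : Type} {L : LineBundle (2 * n) X ι} (h : IsPairV L) (m : ℕ) :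
    ∃ g : Fin ((m + n - 1).choose (n - 1)) → ι → X → ℂ, (∀ a, Sec L m (g a)) ∧ IndSec L g := by
  obtain ⟨f, hf, ha, -⟩ := h.sections hn
  rcases hn with rfl | rfl
  · have h1 : (m + 2 - 1).choose (2 - 1) = m + 1 := by
      rw [show m + 2 - 1 = m + 1 by omega, show 2 - 1 = 1 by rfl, Nat.choose_one_right]
    rw [h1]
    exact ha.sections2 hf m
  · have h1 : (m + 3 - 1).choose (3 - 1) = (m + 1) * (m + 2) / 2 := by
      rw [show m + 3 - 1 = m + 2 by omega, show 3 - 1 = 2 by rfl, Nat.choose_two_right,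
        show m + 2 - 1 = m + 1 by omega, mul_comm]
    rw [h1]
    exact ha.sections3 hf m

end Vale.Agent.P301.H99
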